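import Crest.Agent.N265.Fx.I0
import Crest.Agent.N265.V.Loc
import Crest.Agent.N265.Top.Zero

/-!
# Row 265, M-FIX, task FX-BASE (helper83): the graph over `P(H⁰ β₁) × P(H⁰ β₂)`
-/

set_option autoImplicit false
set_option linter.dupNamespace false
noncomputable section
open MvPolynomial Module TensorProduct

namespace Crest.Agent.N265.M
open Crest.Agent.R274
open Defs_781 Lat_781 SnapA_99 SnapB_99 SnapE_99 Gen7_750 Xs1_781 SkDefs_474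
open Alg GV Br N Fib _root_.Crest.Agent.N265.Pow

namespace FB
section gen
variable {X P : Spc} {A : Bun X} {δ : D} {b : ℕ} {y : A.ι → Var}
lemma psub_surj (h : IsPSub P A δ b y) (hA : A.Rk 1) {x : Pt} (hx : x ∈ X.pts) :
    ∃ z ∈ P.pts, restr X.B z = x := by
  obtain ⟨⟨u, hu⟩, hu0, -⟩ := finrank_eq_one_iff'.1 (hA _ hx)
  obtain ⟨z, hz, e, -⟩ := h.exists_pt hx hu fun h0 => hu0 (Subtype.ext h0)
  exact ⟨z, hz, e⟩
lemma sm_base (h : IsPSub P A δ b y) (hA : A.Rk 1) {n : ℕ} (hP : P.Sm (n + 1)) : X.Sm n :=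
  fun x hx => by
    obtain ⟨z, hz, rfl⟩ := psub_surj h hA hx
    obtain ⟨h1, h2⟩ := hP z hz
    rw [h.finrank_tan hz, hA _ hx] at h1
    rw [h.ldim hz, hA _ hx, Nat.cast_add] at h2
    exact ⟨Nat.add_right_cancel h1, WithTop.add_right_cancel (ENat.natCast_ne_top 1) h2⟩
lemma irred_base (h : IsPSub P A δ b y) (hA : A.Rk 1) (hP : P.Irred) : X.Irred :=
  hP.of_surj h.proj fun _ hx => psub_surj h hA hx
lemma wt_of_sc {V : GV} {k : ℤ} (hV : V.Sc (k • eT)) {L : Pt → Submodule ℂ V.V} (hA : Pres A V L)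
    {y : A.ι → Var} (h : IsPSub P A 0 b y) (i : A.ι) : (y i).2.2 = k := by
  have := DFunLike.congr_fun ((hV.deg_eq hA i).symm.trans (h.deg i)) none
  simpa [eT] using this.symm
/-- the image of a point -/
lemma push_incl_pt {Q : Spc} (p : Proj P X) (hQ : Q.Sub P) {w w' : ℕ → ℤ} (h : Q.IsPt w)
    (hw : X.TTriv w') : ∃ Q' : Spc, Q'.Sub X ∧ Q'.IsPt w' ∧
      push P X (incl Q P (one Q)) = incl Q' X (one Q') := by
  have q := hQ.proj.trans p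
  have hp : ∃ x ∈ (Q.img X.B q.sub).pts, ∀ y ∈ (Q.img X.B q.sub).pts,
      ∃ c : ℕ → ℂ, ∀ v, y v = c v.1 * x v := by
    obtain ⟨x, hx, hx'⟩ := h.2
    refine ⟨_, ⟨x, hx, rfl⟩, ?_⟩
    rintro _ ⟨z, hz, rfl⟩
    obtain ⟨c, hc⟩ := hx' z hz
    refine ⟨c, fun v => ?_⟩
    by_cases hv : v.1 ∈ X.B <;> simp [restr, hv, hc]
  refine ⟨Q.img X.B q.sub, q.img_sub, ⟨hw.sub q.img_sub, hp⟩, ?_⟩
  rw [← push_eq_incl hQ, push_push hQ.proj p, ← push_eq_incl q.img_sub,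
    ← push_one_pt h ⟨h.1.img _ _, hp⟩ (Q.proj_img _ _), push_push (Q.proj_img _ _) q.img_sub.proj]
variable {V W : GV}
lemma blk_of_mem (γ : Blk V) {b : ℕ} {v : Var} (h : v ∈ γ.vars b) : v.1 = b := by
  obtain ⟨i, -, rfl⟩ := Finset.mem_image.1 h
  rfl
lemma vec_ne_iff (γ : Blk V) {b : ℕ} {x : Pt} : γ.vec b x ≠ 0 ↔ ∃ v ∈ γ.vars b, x v ≠ 0 := by
  refine ⟨fun h => by_contra fun h' => h (γ.e.ext_elem fun i => ?_), ?_⟩
  · rw [γ.repr_vec, map_zero, Finsupp.zero_apply]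
    exact by_contra fun h0 => h' ⟨_, Finset.mem_image_of_mem _ (Finset.mem_univ i), h0⟩
  · rintro ⟨v, hv, h0⟩ e
    obtain ⟨i, -, rfl⟩ := Finset.mem_image.1 hv
    exact h0 ((γ.repr_vec b x i).symm.trans (by rw [e, map_zero, Finsupp.zero_apply]))
lemma card_vars (γ : Blk V) (b : ℕ) : (γ.vars b).card = finrank ℂ V.V := by
  rw [Blk.vars, Finset.card_image_of_injective _ (γ.var_inj b), finrank_eq_card_basis γ.e,
    Finset.card_univ]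
lemma filter_vars (γ : Blk V) (γ' : Blk W) {b b' : ℕ} (h : b ≠ b') :
    (γ.vars b ∪ γ'.vars b').filter (·.1 = b) = γ.vars b := by
  ext v
  rw [Finset.mem_filter, Finset.mem_union]
  exact ⟨fun hv => hv.1.resolve_right fun k => h (hv.2.symm.trans (blk_of_mem γ' k)),
    fun hv => ⟨Or.inl hv, blk_of_mem γ hv⟩⟩
lemma mem_full2 (γ : Blk V) (γ' : Blk W) {b b' : ℕ} (h : b ≠ b') {x : Pt} :
    x ∈ (Spc.full {b, b'} (γ.vars b ∪ γ'.vars b')).pts ↔ γ.vec b x ≠ 0 ∧ γ'.vec b' x ≠ 0 ∧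
      ∀ v, x v ≠ 0 → v ∈ γ.vars b ∨ v ∈ γ'.vars b' := by
  rw [vec_ne_iff, vec_ne_iff, Spc.mem_full]
  refine ⟨fun ⟨h1, h2⟩ => ⟨?_, ?_, fun v hv => Finset.mem_union.1 (h2 v hv).1⟩,
    fun ⟨⟨v, hv, h1⟩, ⟨v', hv', h2⟩, h3⟩ => ⟨fun c hc => ?_, fun u hu =>
      ⟨Finset.mem_union.2 (h3 u hu), ?_⟩⟩⟩
  · obtain ⟨v, e, hv⟩ := h1 b (by simp)
    exact ⟨v, (Finset.mem_union.1 (h2 v hv).1).resolve_right
      fun k => h (e.symm.trans (blk_of_mem γ' k)), hv⟩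
  · obtain ⟨v, e, hv⟩ := h1 b' (by simp)
    exact ⟨v, (Finset.mem_union.1 (h2 v hv).1).resolve_left
      fun k => h ((blk_of_mem γ k).symm.trans e), hv⟩
  · rcases Finset.mem_insert.1 hc with rfl | hc
    · exact ⟨v, blk_of_mem γ hv, h1⟩
    · exact ⟨v', (blk_of_mem γ' hv').trans (Finset.mem_singleton.1 hc).symm, h2⟩
  · rcases h3 u hu with k | k
    · simp [blk_of_mem γ k]
    · simp [blk_of_mem γ' k]
end gen

variable {Sg : Surf} {p : ℕ} {β β₁ β₂ : Sg.V.G} {k k₁ k₂ : ℤ} {b : ℕ}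

lemma mem_O_neg (E : Sg.V.G) {s : Sg.F} (hs : s ≠ 0) {T : Finset (Fin 3)} (hT : T.Nonempty)
    (x : Sg.F) : x ∈ Sg.V.T.O (-(β + Sg.V.div s hs) + E) T ↔ s⁻¹ * x ∈ Sg.V.T.O (-β + E) T := by
  rw [← Ch.mem_O_div _ (inv_ne_zero hs) hT, div_inv' hs, neg_add, add_right_comm]
lemma mem_Gm_neg {s : Sg.F} (hs : s ≠ 0) (e : ℤ) (x : Sg.F) :
    x ∈ Gm (OL Sg.V.T (-(β + Sg.V.div s hs))).toLat e ↔ s⁻¹ * x ∈ Gm (OL Sg.V.T (-β)).toLat e := by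
  rw [Gm_OL, Gm_OL, mem_Sec, mem_Sec]
  exact forall₂_congr fun _ hT => mem_O_neg _ hs hT x
open Classical in
/-- the ideal of the divisor of `s` -/
def JJ (β : Sg.V.G) (s : SB Sg β) : XL Sg Sg.F :=
  if h : s.1 ≠ 0 then OL Sg.V.T (-(β + Sg.V.div s.1 h)) else OX Sg.V.X
lemma JJ_eq {s : SB Sg β} (h : s.1 ≠ 0) : JJ β s = OL Sg.V.T (-(β + Sg.V.div s.1 h)) := dif_pos h
lemma val_ne {s : SB Sg β} (h : s ≠ 0) : s.1 ≠ 0 := fun e => h (Subtype.ext e)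
lemma JJ_ty {s : SB Sg β} (h : s ≠ 0) : Ty (JJ β s) β 0 := JJ_eq (val_ne h) ▸ ty_OL _
lemma JJ_le {s : SB Sg β} (h : s ≠ 0) : LeL (JJ β s) (OX Sg.V.X) :=
  JJ_eq (val_ne h) ▸ OL_le _ s.2
lemma eqv_JJ_iff {I : XL Sg Sg.F} (h : Ty I β 0) (le : LeL I (OX Sg.V.X)) {s : SB Sg β}
    (hs : s ≠ 0) : EqL I (JJ β s) ↔ s ∈ lS β I := by
  rw [JJ_eq (val_ne hs)]
  refine ⟨fun e => Submodule.subset_span ⟨val_ne hs, e.le⟩, fun hm => ?_⟩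
  obtain ⟨f, hf, h1, h2⟩ := h
  rw [lS_eq_span (f := ⟨f, (mem_SB_iff hf).2 (eff_of_FC h1 le)⟩) h1,
    Submodule.mem_span_singleton] at hm
  obtain ⟨c, rfl⟩ := hm
  have hc : c ≠ 0 := left_ne_zero_of_smul hs
  refine (h1.eqv_of_len h2).trans fun T hT => Submodule.ext fun x => ?_
  have e1 := mem_O_neg (β := β) 0 hf hT x
  have e2 := mem_O_neg (β := β) 0 (val_ne hs) hT x
  rw [add_zero, add_zero] at e1 e2
  refine e1.trans (Iff.trans ?_ e2.symm)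
  change _ ↔ (c • f)⁻¹ * x ∈ _
  rw [smul_inv₀, smul_mul_assoc, Submodule.smul_mem_iff _ (inv_ne_zero hc)]
lemma mul_mem_SA (s : SB Sg β) (q : Gm (OL Sg.V.T (-β)).toLat p) : s.1 * q.1 ∈ SA Sg p := by
  by_cases hs : s.1 = 0
  · rw [hs, zero_mul]; exact zero_mem _
  rw [SA_eq]
  exact Gm_mono (OL_le hs s.2) _ ((mem_Gm_neg hs _ _).2 (by rw [inv_mul_cancel_left₀ hs]; exact q.2))
/-- `(s, q) ↦ s q` -/
def mulQ (β : Sg.V.G) (p : ℕ) (k : ℤ) :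
    SB Sg β →ₗ[ℂ] Gm (OL Sg.V.T (-β)).toLat p →ₗ[ℂ] ((r1 Sg k).G p).V :=
  LinearMap.mk₂ ℂ (fun s q _ => ⟨s.1 * q.1, mul_mem_SA s q⟩)
    (fun _ _ _ => funext fun _ => Subtype.ext (add_mul _ _ _))
    (fun _ _ _ => funext fun _ => Subtype.ext (smul_mul_assoc _ _ _))
    (fun _ _ _ => funext fun _ => Subtype.ext (mul_add _ _ _))
    fun _ _ _ => funext fun _ => Subtype.ext (mul_smul_comm _ _ _)
lemma inc_mulQ (s : SB Sg β) (q : Gm (OL Sg.V.T (-β)).toLat p) :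
    (r1 Sg k).inc p (mulQ β p k s q) = s.1 * q.1 := rfl
lemma map_mulQ {s : SB Sg β} (hs : s ≠ 0) :
    (⊤ : Submodule ℂ _).map (mulQ β p k s) = (r1 Sg k).pc (JJ β s) p := by
  ext w
  rw [Amb.mem_pc (𝔞 := r1 Sg k), JJ_eq (val_ne hs), mem_Gm_neg]
  refine ⟨?_, fun h => ⟨⟨_, h⟩, trivial, (r1 Sg k).inc_inj p ?_⟩⟩
  · rintro ⟨q, -, rfl⟩
    rw [inc_mulQ, inv_mul_cancel_left₀ (val_ne hs)]
    exact q.2
  · rw [inc_mulQ, mul_inv_cancel_left₀ (val_ne hs)]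
/-- the family of the ideals `O(-D)`, `D ∈ |β|` -/
theorem ifam_OL {X Z : Spc} {I : Pt → XL Sg Sg.F} (h : IFam X p β 0 k I)
    (hex : ∀ s : SB Sg β, s ≠ 0 → ∃ x ∈ X.pts, EqL (I x) (JJ β s)) (γ : Blk (LG Sg β k)) {c : ℕ}
    (hc : c ∈ Z.B) (h0 : ∀ z ∈ Z.pts, γ.vec c z ≠ 0) :
    IFam Z p β 0 k fun z => JJ β (γ.vec c z) := by
  have hG : ((r1 Sg k).G p).Sc (k • eT) := sc_pi fun _ => sc_shift _ _
  have hQ := sc_shift (Gm (OL Sg.V.T (-β)).toLat p) (-eB c)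
  have hφ : IsRM Z _ ((r1 Sg k).G p) _ := IsRM.of_bilin
    (V := (triv (Gm (OL Sg.V.T (-β)).toLat p)).shift (-eB c)) (γ.isRV_vec c) (mulQ β p k)
    fun s q => by
      rw [((sc_shift (SB Sg β) (k • eT)).shift (eB c)) s, hQ q, hG, map_smul, map_smul,
        LinearMap.smul_apply, smul_smul, ← chi_add, neg_add_cancel_comm_assoc]
  refine ⟨LFam.of_one h.fam.two (fun z hz => Fam.LE.trans (JJ_le (h0 z hz)) (r1_O k).symm.le)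
    (fun z hz => ?_) ?_ le_rfl (((IsAB.top (hQ.in_ (neg_mem (eB_mem hc)))).map_of_inj
      ((r1 Sg k).in_G _ _) hφ fun z hz => ?_).congr fun z hz => map_mulQ (h0 z hz)),
    fun z hz => JJ_ty (h0 z hz)⟩
  · obtain ⟨x, hx, e⟩ := hex _ (h0 z hz)
    exact regL_congr e (h.fam.reg x hx)
  · obtain ⟨d, c, hc⟩ := h.fam.hp
    refine ⟨d, c, fun z hz => ?_⟩
    obtain ⟨x, hx, e⟩ := hex _ (h0 z hz)
    exact (cL_congr e).symm.trans (hc x hx)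
  · rw [top_inf_eq, LinearMap.ker_eq_bot']
    intro q hq
    have := congrArg ((r1 Sg k).inc p) hq
    rw [inc_mulQ, map_zero] at this
    exact Subtype.ext ((mul_eq_zero.1 this).resolve_left (val_ne (h0 z hz)))

/-- the two descriptions of the graph -/
structure Gr0 (u : Uni Sg p β₁ β₂ 0 0 k₁ k₂ b) where
  b₁ : ℕ
  b₂ : ℕ
  V : Finset Var
  Γ : Spc
  M : Spc
  A : Bun (Spc.full {b₁, b₂} V)
  y : A.ι → Var
  A₁ : Bun u.F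
  y₁ : A₁.ι → Var
  A₂ : Bun M
  y₂ : A₂.ι → Var
  ne : b₁ ≠ b₂
  hV : ∀ v ∈ V, v.1 = b₁ ∨ v.1 = b₂
  c₁ : (V.filter (·.1 = b₁)).card = Sg.V.hh β₁ 0
  c₂ : (V.filter (·.1 = b₂)).card = Sg.V.hh β₂ 0
  hΓ : IsPSub Γ A 0 b y
  hA : A.Rk 1
  hM : IsPSub M A₁ 0 b₁ y₁
  hΓ' : IsPSub Γ A₂ 0 b₂ y₂
  r₁ : A₁.Rk 1
  r₂ : A₂.Rk 1
  e₁ : A₁.kl = lcl u.F β₁ k₁ u.I₁
  e₂ : A₂.kl = K.pull hM.proj (lcl u.F β₂ k₂ u.I₂)
  w₁ : ∀ i, (y₁ i).2.2 = k₁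
  w₂ : ∀ i, (y₂ i).2.2 = k₂

lemma exists_ne (h : Ch.HasSec Sg.V β) : ∃ s : SB Sg β, s ≠ 0 :=
  let ⟨s, hs, h0⟩ := h
  ⟨⟨s, (mem_Sec _).2 hs⟩, fun e => h0 (congrArg Subtype.val e)⟩

theorem exists_gr0 (u : Uni Sg p β₁ β₂ 0 0 k₁ k₂ b) (h₁ : Ch.HasSec Sg.V β₁)
    (h₂ : Ch.HasSec Sg.V β₂) (l₁ : IsAB u.F (LG Sg β₁ k₁) fun x => lS β₁ (u.I₁ x))
    (l₂ : IsAB u.F (LG Sg β₂ k₂) fun x => lS β₂ (u.I₂ x)) : Nonempty (Gr0 u) := by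
  obtain ⟨γ₁⟩ := ((sc_shift (SB Sg β₁) (k₁ • eT)).in_ (zsmul_mem (eT_mem ∅) _)).exists_blk
  obtain ⟨γ₂⟩ := ((sc_shift (SB Sg β₂) (k₂ • eT)).in_ (zsmul_mem (eT_mem ∅) _)).exists_blk
  obtain ⟨t₁, ht₁⟩ := exists_ne h₁
  obtain ⟨t₂, ht₂⟩ := exists_ne h₂
  have ex := fun (s₁ : SB Sg β₁) (s₂ : SB Sg β₂) (e₁ : s₁ ≠ 0) (e₂ : s₂ ≠ 0) =>
    u.ex _ _ (JJ_le e₁) (JJ_le e₂) (JJ_ty e₁) (JJ_ty e₂)
  have hne : b + 1 ≠ b + 2 := by omega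
  have mZ := fun x => mem_full2 γ₁ γ₂ hne (x := x)
  obtain ⟨Γ, A, y, hΓ, hA, mΓ⟩ := u.graph
    (Spc.full {b + 1, b + 2} (γ₁.vars (b + 1) ∪ γ₂.vars (b + 2))) _ _ (by simp)
    (ifam_OL u.f₁ (fun s hs => (ex s t₂ hs ht₂).imp fun _ h => ⟨h.1, h.2.1⟩) γ₁ (c := b + 1)
      (by simp) fun z hz => ((mZ z).1 hz).1)
    (ifam_OL u.f₂ (fun s hs => (ex t₁ s ht₁ hs).imp fun _ h => ⟨h.1, h.2.2⟩) γ₂ (c := b + 2)
      (by simp) fun z hz => ((mZ z).1 hz).2.1)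
  obtain ⟨A₁, y₁, M, p₁, hM, mM⟩ := l₁.exists_psub γ₁ (b := b + 1) (by simp [u.B])
  have MB : M.B = {b + 1, b} := by rw [hM.B, u.B]
  obtain ⟨A₂, y₂, Γ', p₂, hΓ', mΓ'⟩ := (l₂.pull hM.proj).exists_psub γ₂ (b := b + 2) (by simp [MB])
  obtain rfl : Γ = Γ' := by
    refine Spc.ext (by rw [hΓ.B, hΓ'.B, MB]; ext; simp; omega) (Set.ext fun z => ?_)
    have v₀ := γ₁.vec_restr (B := M.B) (b := b + 1) (by simp [MB]) z
    have v₁ := γ₁.vec_restr (B := {b + 1, b + 2}) (b := b + 1) (by simp) z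
    have v₂ := γ₂.vec_restr (B := {b + 1, b + 2}) (b := b + 2) (by simp) z
    rw [mΓ, mΓ', mM, restr_restr hM.proj.sub, v₀, Spc.full_B, v₁, v₂]
    change (_ ∧ _ ∧ _) ∧ _ ↔ _
    rw [mZ, Spc.full_B, v₁, v₂]
    refine ⟨fun ⟨⟨⟨n₁, n₂, s₁⟩, hx, s₂⟩, e₁, e₂⟩ => ⟨⟨hx,
      (eqv_JJ_iff (u.f₁.ty _ hx) (u.f₁.le hx) n₁).1 e₁, n₁, fun v hv => ?_⟩,
      (eqv_JJ_iff (u.f₂.ty _ hx) (u.f₂.le hx) n₂).1 e₂, n₂, fun v hv => ?_⟩,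
      fun ⟨⟨hx, e₁, n₁, s₁⟩, e₂, n₂, s₂⟩ => ⟨⟨⟨n₁, n₂, fun v hv => ?_⟩, hx, fun v hv => ?_⟩,
      (eqv_JJ_iff (u.f₁.ty _ hx) (u.f₁.le hx) n₁).2 e₁,
      (eqv_JJ_iff (u.f₂.ty _ hx) (u.f₂.le hx) n₂).2 e₂⟩⟩
    · obtain ⟨k₁, k₂⟩ := Sp.restr_ne.1 hv
      rw [MB, Finset.mem_insert, ← u.B] at k₁
      refine k₁.symm.imp_right fun k => (s₁ v (Sp.restr_ne.2 ⟨by simp [k], k₂⟩)).resolve_right ?_
      exact fun k' => hne (k.symm.trans (blk_of_mem γ₂ k'))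
    · rcases Finset.mem_union.1 (s₂ v hv) with k | k
      · exact (s₁ v (Sp.restr_ne.2 ⟨k, hv⟩)).imp_left fun k' => by simp [MB, blk_of_mem γ₁ k']
      · exact Or.inl (hM.proj.sub k)
    · obtain ⟨k₁, k₂⟩ := Sp.restr_ne.1 hv
      refine (s₂ v k₂).imp_left fun k => (s₁ v (Sp.restr_ne.2 ⟨k, k₂⟩)).resolve_left fun k' => ?_
      exact hΓ.new (Finset.mem_singleton.1 (u.B ▸ k') ▸ k₁)
    · rcases s₂ v hv with k | k
      · rw [MB, Finset.mem_insert, ← u.B] at k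
        exact Finset.mem_union.2 (k.imp_left fun k' => by simp [k'])
      · exact Finset.mem_union_left _ (by simp [blk_of_mem γ₂ k])
  exact ⟨{
    b₁ := b + 1, b₂ := b + 2, V := _, Γ := Γ, M := M, A := A, y := y, A₁ := A₁, y₁ := y₁
    A₂ := A₂, y₂ := y₂, ne := hne
    hV := fun v hv => (Finset.mem_union.1 hv).imp (blk_of_mem γ₁) (blk_of_mem γ₂)
    c₁ := by rw [filter_vars γ₁ γ₂ hne, card_vars, Ch.hh_zero]; rfl
    c₂ := by rw [Finset.union_comm, filter_vars γ₂ γ₁ hne.symm, card_vars, Ch.hh_zero]; rfl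
    hΓ := hΓ, hA := hA, hM := hM, hΓ' := hΓ'
    r₁ := fun x hx => (p₁.finrank hx).trans ((u.f₁.ty x hx).finrank_lS (u.f₁.le hx))
    r₂ := fun x hx => (p₂.finrank hx).trans
      ((u.f₂.ty _ (hM.proj.map x hx)).finrank_lS (u.f₂.le (hM.proj.map x hx)))
    e₁ := p₁.kl
    e₂ := p₂.kl.trans (kc_pull l₂ hM.proj).symm
    w₁ := wt_of_sc (sc_shift _ _) p₁ hM
    w₂ := wt_of_sc (sc_shift _ _) p₂ hΓ' }⟩

namespace Gr0
variable {u : Uni Sg p β₁ β₂ 0 0 k₁ k₂ b} (g : Gr0 u)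
include g
lemma card_V : g.V.card = Sg.V.hh β₁ 0 + Sg.V.hh β₂ 0 := by
  rw [← g.c₁, ← g.c₂, ← Finset.card_union_of_disjoint (Finset.disjoint_filter.2
    fun v _ e e' => g.ne (e.symm.trans e')), ← Finset.filter_or, Finset.filter_true_of_mem g.hV]
theorem good (h₁ : Ch.HasSec Sg.V β₁) (h₂ : Ch.HasSec Sg.V β₂) : u.Good := by
  have n₁ := Ch.hasSec_iff.1 h₁
  have n₂ := Ch.hasSec_iff.1 h₂
  have hZ : (Spc.full {g.b₁, g.b₂} g.V).Irred := Spc.full_irred fun c hc => by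
    rcases Finset.mem_insert.1 hc with rfl | hc
    · obtain ⟨v, hv⟩ := Finset.card_ne_zero.1 (g.c₁.trans_ne n₁)
      exact ⟨v, Finset.mem_filter.1 hv⟩
    · obtain ⟨v, hv⟩ := Finset.card_ne_zero.1 (g.c₂.trans_ne n₂)
      exact ⟨v, Finset.mem_singleton.1 hc ▸ Finset.mem_filter.1 hv⟩
  have hs := g.hΓ.sm (Spc.full_sm fun v hv => by simpa using g.hV v hv) g.hA
  have hi : g.Γ.Irred := Spc.irred_of_smooth (g.hΓ.conn hZ.conn fun x hx e => by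
    have := g.hA x hx
    rw [e, finrank_bot] at this
    exact zero_ne_one this) fun x hx => by rw [Spc.SmAt, (hs x hx).1, (hs x hx).2]
  refine ⟨irred_base g.hM g.r₁ (irred_base g.hΓ' g.r₂ hi),
    sm_base g.hM g.r₁ (sm_base g.hΓ' g.r₂ ?_)⟩
  rwa [show u.dim + 1 = g.V.card by rw [g.card_V, Uni.dim]; omega]
theorem top (h₁ : Ch.HasSec Sg.V β₁) (h₂ : Ch.HasSec Sg.V β₂) :
    ∃ P : Spc, P.Sub u.F ∧ P.IsPt (fun _ => u.w) ∧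
      ((1 - op _ (lcl u.F β₁ k₁ u.I₁) * Top.tO u.F (-k₁)) ^ (Sg.V.hh β₁ 0 - 1) *
        (1 - op _ (lcl u.F β₂ k₂ u.I₂) * Top.tO u.F (-k₂)) ^ (Sg.V.hh β₂ 0 - 1)) • one u.F =
        incl P u.F (one P) := by
  have n₁ := Ch.hasSec_iff.1 h₁
  have n₂ := Ch.hasSec_iff.1 h₂
  let w : ℕ → ℤ := fun c => if c = g.b₁ then k₁ else if c = g.b₂ then k₂ else u.w
  have w₁ : w g.b₁ = k₁ := if_pos rfl
  have w₂ : w g.b₂ = k₂ := (if_neg g.ne.symm).trans (if_pos rfl)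
  have wF : u.F.TTriv w := fun x hx v hv => by
    have hv' : v.1 ∈ u.F.B := (Sp.restr_ne.1 ((u.F.restr_eq hx).symm ▸ hv)).1
    rw [u.tt x hx v hv]
    exact ((if_neg fun e : v.1 = g.b₁ => g.hM.new (e ▸ hv')).trans
      (if_neg fun e : v.1 = g.b₂ => g.hΓ'.new (e ▸ g.hM.proj.sub hv'))).symm
  obtain ⟨P, hP, hpt, e⟩ := top_of_graph g.ne g.hV (g.c₁.trans (Nat.sub_one_add_one n₁).symm)
    (g.c₂.trans (Nat.sub_one_add_one n₂).symm) g.hΓ g.hA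
    (g.hΓ'.ttriv (g.hM.ttriv wF fun i => (g.w₁ i).trans w₁.symm) fun i => (g.w₂ i).trans w₂.symm)
  have π := g.hΓ'.proj.trans g.hM.proj
  obtain ⟨Q, hQ, hQ', e'⟩ := push_incl_pt π hP hpt u.tt
  refine ⟨Q, hQ, hQ', ?_⟩
  have k : ∀ (c : ℕ) (k : ℤ) (l : K u.F), K.pull π l = lbK g.Γ (0 - eB c) →
      Op.pull π (1 - op _ l * Top.tO u.F (-k)) = 1 - lb g.Γ (-(eB c + k • eT)) := fun c k l h => by
    rw [map_sub, map_one, map_mul, Op.pull_op, h, Op.pull_lb _ (zsmul_mem (eT_mem _) _), neg_add,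
      lb_add, zero_sub, neg_smul]
    rfl
  rw [← e', ← e, ← push_smul_one π (by
    rw [← push_push g.hΓ'.proj g.hM.proj, g.hΓ'.push_one g.r₂, g.hM.push_one g.r₁]),
    map_mul, map_pow, map_pow, k g.b₁, k g.b₂, w₁, w₂]
  · rw [← K.pull_pull g.hΓ'.proj g.hM.proj, ← g.e₂, K.pull_kl, g.hΓ'.kl_graph g.r₂]
  · rw [← K.pull_pull g.hΓ'.proj g.hM.proj, ← g.e₁, K.pull_kl, g.hM.kl_graph g.r₁,
      K.pull_lbK _ (sub_mem (zero_mem _) g.hM.b_mem)]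
end Gr0
end FB

end Crest.Agent.N265.M
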