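import Crest.Agent.N265.Fx.Lam
import Crest.Agent.N265.Fx.Base0

/-!
# Row 265, M-FIX, task FX-BASE: level zero is a graph over `P(H⁰ β₁) × P(H⁰ β₂)`

Plan.  Choose blocks `b₁ ≠ b₂`, both `≠ b`, and `Blk`s `γ_i` of `LG Sg β_i k_i` (`In.exists_blk`; all
weights are `k_i`, `chi` is injective), `V = γ₁.vars b₁ ∪ γ₂.vars b₂`, `Z = Spc.full {b₁, b₂} V`,
`s_i z = γ_i.vec b_i z ≠ 0`, `J_i z = OL (-(β_i + div (s_i z)))`.
* `ifam_OL`: `J_i` is an `IFam` on `Z` (`LFam.of_one` in degree `p`; `pc (J z) p` is the image of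
  `QS` (`Fx/Glue`) under multiplication by `s z`: `IsAB.map_of_inj` / constant rank; regularity from
  `u.ex`, `u.f₁.fam.reg`, `Ty.reg_OL`).
* `u.graph Z J₁ J₂` gives `Γ`, a graph over `Z`.  With `l_i = lS β_i (u.I_i x)` (`isAB_lS'`, rank one)
  `IsAB.exists_psub` (Fx/Sc) twice gives `M → F` (block `b₁`) and `Γ' → M` (block `b₂`); `Γ' = Γ`
  because `EqL (I x) (OL (-(β + div s))) ↔ s ∈ lS β (I x)` for type `(β, 0)` (`FC.eqv_of_len`,
  `lS_eq_span`).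
* `good_zero'`: `Z` is smooth irreducible, so is `Γ` (`IsPSub.sm`, `conn`); `F` is the image of `Γ`
  (irreducible), and dimensions: `ldim Γ = ldim F + 2`, `Tan Γ = Tan F + 2` (`IsPSub.finrank_tan`,
  `IsPSub.ldim`), `dim Γ = h⁰β₁ + h⁰β₂ + 1`.
* `top_zero'`: `top_of_graph` on `Γ` with `w b = u.w`, `w b_i = k_i`; on `Γ` the pull back of `l_i` is
  the tautological line `O(-e_{b_i})` (`kl_graph` / `kl_quot`), `push Γ F (one Γ) = one F`
  (`IsPSub.push_one`, `push_trans`), `push_smul_one`; the image of the point is a point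
  (`push_one_pt`, `Spc.img`).
-/

set_option autoImplicit false
set_option linter.dupNamespace false
noncomputable section
open MvPolynomial Module TensorProduct

namespace Crest.Agent.N265.M
open Crest.Agent.R274
open Defs_781 Lat_781 SnapA_99 SnapB_99 SnapE_99 Gen7_750 Xs1_781 SkDefs_474
open Alg GV Br N Fib _root_.Crest.Agent.N265.Pow

variable {Sg : Surf} {p : ℕ} {β₁ β₂ : Sg.V.G} {k₁ k₂ : ℤ} {b : ℕ}

namespace Uni
theorem good_zero' (u : Uni Sg p β₁ β₂ 0 0 k₁ k₂ b) (h₁ : Ch.HasSec Sg.V β₁)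
    (h₂ : Ch.HasSec Sg.V β₂) : u.Good :=
  (FB.exists_gr0 u h₁ h₂ u.f₁.isAB_lS' u.f₂.isAB_lS').elim fun g => g.good h₁ h₂
theorem top_zero' (u : Uni Sg p β₁ β₂ 0 0 k₁ k₂ b) (h₁ : Ch.HasSec Sg.V β₁)
    (h₂ : Ch.HasSec Sg.V β₂) : ∃ P : Spc, P.Sub u.F ∧ P.IsPt (fun _ => u.w) ∧
      ((1 - op _ (lcl u.F β₁ k₁ u.I₁) * Top.tO u.F (-k₁)) ^ (Sg.V.hh β₁ 0 - 1) *
        (1 - op _ (lcl u.F β₂ k₂ u.I₂) * Top.tO u.F (-k₂)) ^ (Sg.V.hh β₂ 0 - 1)) • one u.F =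
        incl P u.F (one P) :=
  (FB.exists_gr0 u h₁ h₂ u.f₁.isAB_lS' u.f₂.isAB_lS').elim fun g => g.top h₁ h₂
end Uni

end Crest.Agent.N265.M
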