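import Crest.Agent.N265.Fx.Glue
import Crest.Agent.N265.M.Dic

/-!
# Row 265, M-FIX, task FX-EXT: `Ext¹(I, I) → Ext¹(I, I^∨∨)` is zero; injectivity of
`H¹(O(β)) → Ext¹(I, O/I)`
-/

set_option autoImplicit false
set_option linter.dupNamespace false
noncomputable section
open MvPolynomial Module TensorProduct

namespace Crest.Agent.N265.M
open Crest.Agent.R274
open Defs_781 Lat_781 SnapA_99 SnapB_99 SnapE_99 Gen7_750 Xs1_781 SkDefs_474
open Alg GV Br N Fib _root_.Crest.Agent.N265.Pow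

variable {Sg : Surf} {β D : Sg.V.G} {p : ℕ} {k : ℤ} {I : XL Sg Sg.F}

/-- local form.  `B = syz u` is free at `x` (`locF_syz`) with basis `b_j`; `g = resH η` maps `b_j`
to `f(a_j)` with `a_j ∈ O_x^ι`, `f = lc u`.  Koszul homotopy: with `γ` a local generator of
`OL E` (`exists_gen_OL`), `e ↦ γ⁻¹ (f(a_j) e - f(e) a_j)` maps `O_x^ι` to `B_x`, so
`G(e) = ∑_j b_j^∨ (f(a_j) e - f(e) a_j)` maps `O_x^ι` to `(OL E)_x` and extends `g`; then
`resH (η - G) = 0` and `resH_eq_zero`. -/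
theorem ext_loc {ι : Type} [Fintype ι] {u : ι → Sg.F} (hu : u ≠ 0) {M : XL Sg Sg.F} {E : Sg.V.G}
    (hg : Fib.Gens u M) (le : LeL M (OL Sg.V.T E)) (x : Pnt Sg.V.X) {η : ι → Sg.F}
    (hη : resH u Sg.F η ∈ x.loc (HB u M)) :
    ∃ c : Sg.F, ∀ a, η a - c * u a ∈ x.loc (OL Sg.V.T E) := by
  classical
  obtain ⟨b, hb⟩ := locF_syz (S := Sg.V) u x
  choose a ha e using fun j => (hg x _).1 (Pnt.mem_loc_homX.1 hη _ (hb.basis_mem j))
  obtain ⟨γ, -, hγ⟩ := exists_gen_OL x E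
  let s := fun j => LinearMap.codRestrict (LinearMap.ker (lc Sg.F u))
    (lc Sg.F u (a j) • LinearMap.id - (lc Sg.F u).smulRight (a j)) fun w => by simp [mul_comm]
  let G : (ι → Sg.F) →ₗ[Sg.F] Sg.F := ∑ j, b.coord j ∘ₗ s j
  have hG : ∀ w, G w = ∑ j, b.repr (s j w) j := fun w => by simp [G]
  have h1 : ∀ l, G (Pi.single l 1) ∈ x.loc (OL Sg.V.T E) := fun l => by
    rw [hG]
    refine Submodule.sum_mem _ fun j _ => (hγ _).2 ?_
    have := (hb (γ⁻¹ • s j (Pi.single l 1))).1 (mem_loc_syz.2 fun l' => by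
      have h2 := (hγ _).1 (Pnt.loc_mono le ((hg x _).2 ⟨_, ha j, rfl⟩))
      have h3 := (hγ _).1 (Pnt.loc_mono le (hg.mem x l))
      have h4 : (Pi.single l 1 : ι → Sg.F) l' ∈ x.O := by
        rw [Pi.single_apply]
        split_ifs
        exacts [one_mem _, zero_mem _]
      convert sub_mem (mul_mem h2 h4) (mul_mem h3 (ha j l')) using 1
      simp [s, mul_sub, mul_assoc]) j
    simpa using this
  obtain ⟨c, hc⟩ := resH_eq_zero (φ := η - fun l => G (Pi.single l 1)) hu (by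
    rw [map_sub, sub_eq_zero]
    refine LinearMap.ext fun w => ?_
    have h2 : resH u Sg.F (fun l => G (Pi.single l 1)) w = G w.1 := by
      rw [resH_apply, lc_apply, LinearMap.pi_apply_eq_sum_univ G]
      exact Finset.sum_congr rfl fun l _ => by
        congr 2
        exact funext fun l' => by simp [Pi.single_apply, eq_comm]
    have h3 : ∀ j, s j w.1 = lc Sg.F u (a j) • w := fun j => Subtype.ext (by
      have : lc Sg.F u w.1 = 0 := w.2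
      simp [s, this])
    rw [h2, hG]
    conv_lhs => rw [← b.sum_repr w, map_sum]
    exact Finset.sum_congr rfl fun j _ => by
      rw [h3, e, map_smul, map_smul, Finsupp.smul_apply, smul_eq_mul, smul_eq_mul, mul_comm])
  refine ⟨c, fun l => ?_⟩
  have := congrFun hc l
  rw [Pi.smul_apply, Pi.sub_apply, smul_eq_mul] at this
  rw [this, sub_sub_cancel]
  exact h1 l

theorem ne_of_gens {ι : Type} [Fintype ι] {u : ι → Sg.F} {M : XL Sg Sg.F} {E : Sg.V.G}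
    (hg : Fib.Gens u M) (h : FC M (OL Sg.V.T E)) : u ≠ 0 := by
  rintro rfl
  have := h.maps_of_s2 (P := bot Sg.V.X Sg.F) (g := LinearMap.id) (fun x w hw => by
    obtain ⟨a, ha, h0, a0⟩ := x.exists_m_ne two_pos
    exact Pnt.mem_loc_bot.2 ((smul_eq_zero.1 (Pnt.mem_loc_bot.1 (hw a ha h0))).resolve_left a0))
    (maps_of_loc fun x v hv => by
      obtain ⟨c, -, rfl⟩ := (hg x v).1 hv
      simp [lc_apply])
  obtain ⟨y, hy, y0⟩ := Gen8_750.exists_O_ne_zero Sg.V.T E (Finset.singleton_nonempty 0)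
  exact y0 (this _ (Finset.singleton_nonempty 0) y hy)

theorem eqv_twOL (D : Sg.V.G) (e : ℤ) :
    EqL (twX (OL Sg.V.T D) e) (OL Sg.V.T (D + e • Sg.V.h)) := tw_OL' Sg.V D e

theorem fc_tw (h : FC I (OL Sg.V.T D)) (e : ℤ) : FC (twX I e) (OL Sg.V.T (D + e • Sg.V.h)) :=
  (h.twX e).trans (FC.of_eqv (eqv_twOL D e))

/-- global form.  `u` = frame of `pc I p` (`Hm.fu`), `M = twX I p` (`gens_of_span`); the syzygy
lattice is generated in degree `3` (regular: `0 → syz → O^ι → I(p) → 0`), so `resH η` is a global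
section of `HB u M` (`mem_Gm_homX_of_gen`); `ext_loc`, then `glue` with `KB u (OL E) = OL 0` and
`H¹(O) = 0` (`van_OX`).  `u ≠ 0` by `fib_surj` / `FC`. -/
theorem ext_hull (h : FC I (OL Sg.V.T D)) (le : LeL I (OX Sg.V.X)) (hp : 2 ≤ p)
    (hr : RegL I.toLat p) (η : ((r1 Sg k).G p).V →ₗ[ℂ] Sg.F)
    (hη : ∀ t ∈ (r1 Sg k).KK I p 3, mF η 3 t ∈ Gm I.toLat (3 + p : ℕ)) :
    ∃ c : Sg.F, ∀ u ∈ (r1 Sg k).pc I p, η u - c * (r1 Sg k).inc p u ∈ Gm (OL Sg.V.T D).toLat p := by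
  have le' : LeL I (r1 Sg k).O := le.trans (r1_O k).symm.le
  have hg := Amb.gens_fr (𝔞 := r1 Sg k) le' hr
  have hf := fc_tw h p
  have hu := ne_of_gens hg hf
  have h1 : resH ((r1 Sg k).fr I p) Sg.F (fun l => η (Hm.fu ((r1 Sg k).pc I p) l)) ∈
      Gm (HB ((r1 Sg k).fr I p) (twX I p)).toLat 0 :=
    mem_Gm_homX_of_gen (j := (3 : ℕ)) (fun d hd => (Amb.reg_SZ (𝔞 := r1 Sg k) le' hr).gen (by omega))
      fun s hs => by
        obtain ⟨t, ht, rfl⟩ := Amb.exists_KK (𝔞 := r1 Sg k) hs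
        rw [resH_apply, Amb.cz_val, Hm.lc_co η ht.1]
        refine (Gm_tw I.toLat p _).ge ?_
        convert hη t ht using 2
        push_cast
        ring
  obtain ⟨c, hc⟩ := glue hu (OL Sg.V.T (D + (p : ℤ) • Sg.V.h)) 0 (by
    have e := KB_OL hu hg hf (D + (p : ℤ) • Sg.V.h)
    rw [sub_self] at e
    have := van_OX Sg le_rfl one_pos
    exact ((eqv_tw (e.trans (OL_zero _)) 0).H 1).toEquiv.subsingleton)
    (y := fun l => η (Hm.fu ((r1 Sg k).pc I p) l)) fun x => by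
      have := Pnt.Gm_mem_loc (x := x) h1
      rw [neg_zero, zpow_zero, one_smul] at this
      simpa using ext_loc hu hg hf.le x this
  refine ⟨c, (Hm.mem_homMap_fu (θ := η - LinearMap.mulLeft ℂ c ∘ₗ (r1 Sg k).inc p)).2 fun l => ?_⟩
  have := (Gm_tw _ _ _).le ((Gm_congr (eqv_twOL D p) 0).ge (hc l))
  rwa [add_zero] at this

/-- Hartogs at a point -/
theorem loc_hart {ι : Type} [Fintype ι] {u : ι → Sg.F} {M : XL Sg Sg.F} {E : Sg.V.G}
    (hg : Fib.Gens u M) (h : FC M (OL Sg.V.T D)) {x : Pnt Sg.V.X} {c : Sg.F}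
    (hc : ∀ a, c * u a ∈ x.loc (OL Sg.V.T E)) : c ∈ x.loc (OL Sg.V.T (E - D)) := by
  refine mem_loc_OL.2 fun v hv => or_iff_not_imp_left.2 fun c0 => ?_
  obtain ⟨a, ha, a0, h1⟩ := exists_ord_unit hv.1 (h.supp x.i)
  obtain ⟨g, g0, hg1, h2⟩ := Sm2_9.exists_gen Sg.V (Finset.singleton_nonempty _) x.q D
  obtain ⟨w, hw, e⟩ := (hg x _).1 (Pnt.mem_loc_i (ha g hg1))
  have h3 : c * (a * g) ∈ x.loc (OL Sg.V.T E) := by
    convert lc_mem_loc hc hw using 1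
    rw [← smul_eq_mul (a : Sg.F) g, ← e]
    simp [lc_apply, Finset.mul_sum, mul_left_comm]
  have h4 := (mem_loc_OL.1 h3 v hv).resolve_left (mul_ne_zero c0 (mul_ne_zero a0 g0))
  rw [(Sg.V.pl.pl v).ord_mul c0 (mul_ne_zero a0 g0), (Sg.V.pl.pl v).ord_mul a0 g0, h1,
    h2 v hv] at h4
  rw [Finsupp.sub_apply]
  omega

theorem mem_loc_ph {x : Pnt Sg.V.X} {e : ℤ} {f : Sg.F} :
    f ∈ x.loc (OL Sg.V.T (D + e • Sg.V.h)) ↔ Sg.V.X.t x.i ^ (-e) * f ∈ x.loc (OL Sg.V.T D) := by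
  rw [← Pnt.loc_congr (eqv_twOL D e), Pnt.mem_loc_twX, smul_eq_mul]

theorem mem_loc_OL0 {x : Pnt Sg.V.X} {f : Sg.F} : f ∈ x.loc (OL Sg.V.T 0) ↔ f ∈ x.O := by
  rw [Pnt.loc_congr (OL_zero Sg.V.T), Pnt.mem_loc_OX]

theorem mul_mem_loc_OL {x : Pnt Sg.V.X} {s : Sg.F} (hs : s ≠ 0) {f : Sg.F}
    (hf : f ∈ x.loc (OL Sg.V.T (-β))) : s * f ∈ x.loc (OL Sg.V.T (-(β + Sg.V.div s hs))) := by
  refine mem_loc_OL.2 fun v hv => or_iff_not_imp_left.2 fun h0 => ?_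
  have f0 := right_ne_zero_of_mul h0
  have h1 := (mem_loc_OL.1 hf v hv).resolve_left f0
  have h2 : Sg.V.div s hs v = (Sg.V.pl.pl v).ord s := rfl
  rw [Finsupp.neg_apply] at h1
  rw [(Sg.V.pl.pl v).ord_mul hs f0, Finsupp.neg_apply, Finsupp.add_apply, h2]
  omega

theorem mF_sub' {V : Type} [AddCommGroup V] [Module ℂ V] (f g : V →ₗ[ℂ] Sg.F) {j : ℕ}
    (t : V ⊗[ℂ] SA Sg j) : mF (f - g) j t = mF f j t - mF g j t :=
  LinearMap.congr_fun (TensorProduct.ext' (g := mF (f - g) j) (h := mF f j - mF g j)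
    fun _ _ => by simp [mul_sub]) t

/-- `ext_hull` for `η = y θ - φ` gives `y (s⁻¹ u) - c u ∈ A_p` for `u ∈ U` (`OL D ≤ OX` by
`FC.le_OL`).  At `x`, `(c s - c_x) s⁻¹ U ⊂ O_x(p)`; `U` generates `I(p)_x`, so by Hartogs
(`S2At`, stalk version of `FC.maps_of_s2`, or `mem_loc_OL` and `exists_ord_unit`)
`(c s - c_x) Q ⊂ O_x(p)`; hence `y v - c s v ∈ O_x(p)` for all `x`. -/
theorem ob_inj {s : Sg.F} {hs : s ≠ 0} (h : FC I (OL Sg.V.T (-(β + Sg.V.div s hs))))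
    (le : LeL I (OX Sg.V.X)) (hp : 2 ≤ p) (hr : RegL I.toLat p) {y : QS Sg β p →ₗ[ℂ] Sg.F}
    (hy : LocM y) {θ : ((r1 Sg k).G p).V →ₗ[ℂ] QS Sg β p}
    (hθ : ∀ u ∈ (r1 Sg k).pc I p, (θ u).1 = s⁻¹ * (r1 Sg k).inc p u)
    (φ : ((r1 Sg k).G p).V →ₗ[ℂ] ((r1 Sg k).G p).V)
    (H : ∀ t ∈ (r1 Sg k).KK I p 3,
      mF (y ∘ₗ θ) 3 t - mF ((r1 Sg k).inc p ∘ₗ φ) 3 t ∈ Gm I.toLat (3 + p : ℕ)) : GlM y := by
  obtain ⟨c, hc⟩ := ext_hull h le hp hr (y ∘ₗ θ - (r1 Sg k).inc p ∘ₗ φ) fun t ht =>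
    (mF_sub' _ _ t).symm ▸ H t ht
  have h0 := (h.le_OL (le.trans (OL_zero Sg.V.T).symm.le)).trans (OL_zero Sg.V.T).le
  have h1 : ∀ u ∈ (r1 Sg k).pc I p, y (θ u) - c * (r1 Sg k).inc p u ∈ AA Sg.V.X p := fun u hu => by
    have := (AA Sg.V.X p).add_mem (Gm_mono h0 p (hc u hu)) ((SA_eq p).le (φ u ()).2)
    convert this using 1
    rw [LinearMap.sub_apply, LinearMap.comp_apply, LinearMap.comp_apply, r1_inc k p (φ u)]
    ring
  refine ⟨c * s, fun v => (SA_eq p).ge (mem_Gm_of_loc fun x => Pnt.mem_loc_OX.2 ?_)⟩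
  obtain ⟨d, hd⟩ := hy x
  have h2 := loc_hart (Amb.gens_fr (𝔞 := r1 Sg k) (le.trans (r1_O k).symm.le) hr) (fc_tw h p)
    (x := x) (c := d * s⁻¹ - c) (E := 0 + (p : ℤ) • Sg.V.h) fun l => by
      have hl := Hm.fu_mem ((r1 Sg k).pc I p) l
      have := sub_mem (Pnt.AA_mem_O (x := x) (h1 _ hl)) (hd (θ (Hm.fu _ l)))
      rw [hθ _ hl] at this
      refine mem_loc_ph.2 (mem_loc_OL0.2 ?_)
      convert this using 1
      ring
  have h3 := mem_loc_OL0.1 (mem_loc_ph.1 (mem_loc_OL_sub.1 h2 (s * v.1) (mem_loc_ph.2 (by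
    rw [mul_left_comm]
    exact mul_mem_loc_OL hs (Pnt.Gm_mem_loc v.2)))))
  convert add_mem (hd v) h3 using 1
  rw [smul_eq_mul]
  field_simp
  ring

end Crest.Agent.N265.M
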