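import Crest.Agent.N265.M.Ty0
import Crest.Agent.N265.Fib.R1
import Crest.Agent.N265.Fib.H1

/-!
# Row 265, M-FIX, task FX-GLUE: cocycles for `H¹(O(β))`

`Q = Γ(O(-β)(p))`.  A linear map `y : Q → F` that is locally a multiplication modulo `O(p)`
represents a class in `H¹(O(β))`.
-/

set_option autoImplicit false
set_option linter.dupNamespace false
noncomputable section
open MvPolynomial Module TensorProduct

namespace Crest.Agent.N265.M
open Crest.Agent.R274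
open Defs_781 Lat_781 SnapA_99 SnapB_99 SnapE_99 Gen7_750 Xs1_781 SkDefs_474
open Alg GV Br N Fib _root_.Crest.Agent.N265.Pow

variable {Sg : Surf} {β : Sg.V.G} {p n : ℕ} {I : XL Sg Sg.F}

/-- `Γ(O(-β)(p))` -/
abbrev QS (Sg : Surf) (β : Sg.V.G) (p : ℕ) : Submodule ℂ Sg.F := Gm (OL Sg.V.T (-β)).toLat p
/-- locally a multiplication modulo `O(p)` -/
def LocM (y : QS Sg β p →ₗ[ℂ] Sg.F) : Prop := ∀ x : Pnt Sg.V.X, ∃ c : Sg.F, ∀ v,
  Sg.V.X.t x.i ^ (-(p : ℤ)) * (y v - c * v.1) ∈ x.O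
/-- globally a multiplication modulo `Γ(O(p))` -/
def GlM (y : QS Sg β p →ₗ[ℂ] Sg.F) : Prop := ∃ c : Sg.F, ∀ v, y v - c * v.1 ∈ SA Sg p

/-- `FC.regL`, then multiplication by `f` identifies `OL (-(β + div f))` and `OL (-β)`
(or `hL_OL`, `Lin.hh`). -/
theorem Ty.reg_OL (h : Ty I β n) (hr : RegL I.toLat p) : RegL (OL Sg.V.T (-β)).toLat p := by
  obtain ⟨f, hf, hc, -⟩ := h
  intro l
  have h1 := hL_eq_zero_iff.2 (hc.regL hr l)
  rw [hL_OL, ← ((lin_div β hf).neg.add (Lin.refl _)).hh, ← hL_OL] at h1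
  exact hL_eq_zero_iff.1 h1

theorem resH_self {ι : Type} [Fintype ι] (u : ι → Sg.F) : resH (F := Sg.F) u Sg.F u = 0 :=
  LinearMap.ext fun s => s.2

theorem resH_sub {ι : Type} [Fintype ι] (u y : ι → Sg.F) (c : Sg.F) :
    resH (F := Sg.F) u Sg.F (fun a => y a - c * u a) = resH (F := Sg.F) u Sg.F y := by
  change resH (F := Sg.F) u Sg.F (y - c • u) = _
  rw [map_sub, map_smul, resH_self, smul_zero, sub_zero]

/-- **gluing**: `0 → KB u J → J^ι → QB u J → 0` (`exact_KB`), `Gm_surj_of_exact`: the restriction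
`resH u y` lies in every stalk of `QB` (twisted by `e`), hence in `Gm QB e`; lift it to `y'`;
`resH (y - y') = 0` gives `c` (`resH_eq_zero`). -/
theorem glue {ι : Type} [Fintype ι] {u : ι → Sg.F} (hu : u ≠ 0) (J : XL Sg Sg.F) (e : ℤ)
    (h1 : Subsingleton ((tw (KB u hu J).toLat e).H 1)) {y : ι → Sg.F}
    (hy : ∀ x : Pnt Sg.V.X, ∃ c : Sg.F, ∀ a, Sg.V.X.t x.i ^ (-e) • (y a - c * u a) ∈ x.loc J) :
    ∃ c : Sg.F, ∀ a, y a - c * u a ∈ Gm J.toLat e := by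
  have hz : resH (F := Sg.F) u Sg.F y ∈ Gm (QB u J).toLat e := mem_Gm_of_loc fun x => by
    obtain ⟨c, hc⟩ := hy x
    refine Pnt.mem_loc_mapX.2 ⟨Sg.V.X.t x.i ^ (-e) • fun a => y a - c * u a,
      Pnt.mem_loc_piX.2 hc, ?_⟩
    rw [map_smul, resH_sub]
  obtain ⟨y', hy', e'⟩ := Gm_surj_of_exact (exact_KB hu J) h1 hz
  obtain ⟨c, hc⟩ := resH_eq_zero (φ := y - y') hu (by rw [map_sub, e', sub_self])
  refine ⟨c, fun a => ?_⟩
  have h2 : c * u a = y a - y' a := congrFun hc a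
  rw [h2, sub_sub_cancel]
  exact Gm_pi.1 hy' a

open Cx_781 Ses_781 in
/-- the connecting homomorphism on global sections -/
theorem exists_delta {V₁ V₂ V₃ : Type} [AddCommGroup V₁] [Module ℂ V₁] [AddCommGroup V₂]
    [Module ℂ V₂] [AddCommGroup V₃] [Module ℂ V₃] {M₁ : Fam ℂ V₁ n} {M₂ : Fam ℂ V₂ n}
    {M₃ : Fam ℂ V₃ n} {L : V₁ →ₗ[ℂ] V₂} {L' : V₂ →ₗ[ℂ] V₃} (E : Exact M₁ M₂ M₃ L L')
    (h : Subsingleton (M₂.H 1)) : ∃ δ : Γ M₃ →ₗ[ℂ] M₁.cech.H 1, Function.Surjective δ ∧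
      ∀ z : Γ M₃, ∀ y ∈ Γ M₂, L' y = z → δ z = 0 := by
  refine ⟨E.ses.δ 0 ∘ₗ H0 M₃, (E.ses.δ_surjective 0 h).comp (H0_bijective M₃).2, fun z y hy e => ?_⟩
  exact (E.ses.exact_C 0 (H0 M₃ z)).2 ⟨H0 M₂ ⟨y, hy⟩,
    (Gg_413.H0_map E.maps' ⟨y, hy⟩).trans (congrArg _ (Subtype.ext e))⟩

/-- the converse count: if `H¹(J(e)) = 0` then `Gm (QB u J) e / resH (Gm J e ^ ι)` has dimension
`h¹(KB(e))` (`ne_exact` for the twisted sequence: `h⁰(QB) - h⁰(J^ι) + h⁰(KB) = h¹(KB)`); choose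
`F`-preimages (`resH` is onto, or pick a stalk) of a basis of a complement. -/
theorem glue_count {ι : Type} [Fintype ι] {u : ι → Sg.F} (hu : u ≠ 0) (J : XL Sg Sg.F) (e : ℤ)
    (h1 : Subsingleton ((tw J.toLat e).H 1)) : ∃ y : Fin (hL (KB u hu J).toLat e 1) → ι → Sg.F,
    (∀ j (x : Pnt Sg.V.X), ∃ c : Sg.F, ∀ a, Sg.V.X.t x.i ^ (-e) • (y j a - c * u a) ∈ x.loc J) ∧
    ∀ d : Fin _ → ℂ, (∃ c : Sg.F, ∀ a, (∑ j, d j • y j a) - c * u a ∈ Gm J.toLat e) → d = 0 := by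
  have := Ser_781.finite_H (tw (KB u hu J).toLat e) 1
  obtain ⟨δ, hs, h0⟩ := exists_delta (Ser_781.exact_tw (exact_KB hu J) e) (van_pi fun _ => h1)
  let b : Basis (Fin (hL (KB u hu J).toLat e 1)) ℂ ((tw (KB u hu J).toLat e).toFam.cech.H 1) :=
    finBasis ℂ _
  choose z hz using fun j => hs (b j)
  have ht : ∀ i, Sg.V.X.t i ^ e * Sg.V.X.t i ^ (-e) = 1 := fun i => by
    rw [zpow_neg, mul_inv_cancel₀ (zpow_ne_zero _ (Sg.V.X.t_ne i))]
  have h2 : ∀ j, ∃ y, resH (F := Sg.F) u Sg.F y = z j := fun j => by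
    obtain ⟨y, -, hy⟩ := mem_mapL.1 (mem_Gm.1 (z j).2 0)
    exact ⟨Sg.V.X.t 0 ^ e • y, by rw [map_smul, hy, smul_smul, ht, one_smul]⟩
  choose y hy using h2
  refine ⟨y, fun j x => ?_, fun d ⟨c, hc⟩ => ?_⟩
  · obtain ⟨v, hv, e'⟩ := Pnt.mem_loc_mapX.1 (Pnt.Gm_mem_loc (x := x) (M := QB u J) (z j).2)
    obtain ⟨c, hc⟩ := resH_eq_zero (φ := y j - Sg.V.X.t x.i ^ e • v) hu (by
      rw [map_sub, map_smul, e', smul_smul, ht, one_smul, hy, sub_self])
    refine ⟨c, fun a => ?_⟩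
    have h3 : c * u a = y j a - Sg.V.X.t x.i ^ e * v a := congrFun hc a
    rw [h3, sub_sub_cancel, smul_eq_mul, ← mul_assoc, mul_comm (_ ^ (-e)), ht, one_mul]
    exact Pnt.mem_loc_piX.1 hv a
  · have h3 := h0 (∑ j, d j • z j) (fun a => (∑ j, d j • y j) a - c * u a)
      (Gm_pi.2 fun a => by simpa only [Finset.sum_apply, Pi.smul_apply] using hc a) (by
        rw [kl_apply, resH_sub, map_sum, Submodule.coe_sum]
        exact Finset.sum_congr rfl fun j _ => by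
          rw [LinearMap.map_smul_of_tower, hy, Submodule.coe_smul])
    simp only [map_sum, map_smul, hz] at h3
    exact funext (Fintype.linearIndependent_iff.1 b.linearIndependent d h3)

/-- `glue_count` for `u` a basis of `Q` (`gens_of_span`: it generates `twX (OL (-β)) p`, which is
`OL (-β + p h)`), `J = OL (p h)`, `e = 0` (or `J = OX`, `e = p`); `KB = OL β` by the last `KB` lemma
of `Fib/R1`. -/
theorem exists_ys (hr : RegL (OL Sg.V.T (-β)).toLat p) :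
    ∃ y : Fin (Sg.V.hh β 1) → QS Sg β p →ₗ[ℂ] Sg.F, (∀ j, LocM (y j)) ∧
      ∀ d : Fin _ → ℂ, GlM (∑ j, d j • y j) → d = 0 := by
  let b := finBasis ℂ (QS Sg β p)
  have hg : Gens (fun a => (b a : Sg.F)) (twX (OL Sg.V.T (-β)) p) :=
    gens_of_span (fun d hd => hr.gen hd) (span_finBasis _)
  have he : Ser_781.Eqv (twX (OL Sg.V.T (-β)) p).toFam (OL Sg.V.T (-β + (p : ℤ) • Sg.V.h)).toFam :=
    tw_OL' Sg.V (-β) p
  have hu : (fun a => (b a : Sg.F)) ≠ 0 := fun h0 => by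
    obtain ⟨x, -⟩ := exists_pnt (X := Sg.V.X) (Finset.singleton_nonempty 0) (P := ⊥) bot_ne_top
    obtain ⟨g, g0, hg'⟩ := exists_gen_OL x (-β + (p : ℤ) • Sg.V.h)
    obtain ⟨c, -, hc⟩ := (hg.congr he x g).1 ((hg' g).2 (by
      rw [inv_mul_cancel₀ g0]; exact one_mem _))
    rw [h0, lc_apply] at hc
    exact g0 (by simpa using hc.symm)
  have e0 := OL_zero Sg.V.T
  have e1 : hL (KB _ hu (OL Sg.V.T 0)).toLat p 1 = Sg.V.hh β 1 := by
    refine ((eqv_tw (KB_OL hu hg (FC.of_eqv he) 0) p).H 1).finrank_eq.trans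
      ((hL_OL Sg.V _ p 1).trans ?_)
    congr 1
    abel
  obtain ⟨y, h1, h2⟩ := glue_count hu (OL Sg.V.T 0) p
    (((eqv_tw e0 p).H 1).toEquiv.subsingleton_congr.2 (van_OX Sg (Int.natCast_nonneg p) one_pos))
  rw [← e1]
  refine ⟨fun j => b.constr ℂ (y j), fun j x => ?_, fun d ⟨c, hc⟩ => h2 d ⟨c, fun a => ?_⟩⟩
  · obtain ⟨c, hc⟩ := h1 j x
    refine ⟨c, fun v => ?_⟩
    induction b.mem_span v using Submodule.span_induction with
    | mem _ h =>
      obtain ⟨a, rfl⟩ := h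
      have := hc a
      rw [Pnt.loc_congr e0, Pnt.mem_loc_OX] at this
      rwa [Basis.constr_basis]
    | zero => simp
    | add v w _ _ hv hw =>
      convert add_mem hv hw using 1
      rw [map_add, Submodule.coe_add]; ring
    | smul r v _ hv =>
      convert x.O.smul_mem hv r using 1
      rw [map_smul, Submodule.coe_smul, mul_smul_comm, ← smul_sub, mul_smul_comm]
  · have := hc (b a)
    simp only [LinearMap.sum_apply, LinearMap.smul_apply, Basis.constr_basis] at this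
    rw [Gm_congr e0]
    exact (AA_nat Sg.V p).ge this

theorem LocM.sum {ι : Type} [Fintype ι] {y : ι → QS Sg β p →ₗ[ℂ] Sg.F} (h : ∀ j, LocM (y j))
    (d : ι → ℂ) : LocM (∑ j, d j • y j) := fun x => by
  choose c hc using fun j => h j x
  refine ⟨∑ j, d j • c j, fun v => ?_⟩
  convert sum_mem fun j (_ : j ∈ Finset.univ) => x.O.smul_mem (hc j v) (d j) using 1
  simp only [LinearMap.sum_apply, LinearMap.smul_apply, Finset.sum_mul, ← Finset.sum_sub_distrib,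
    Finset.mul_sum, smul_mul_assoc, ← smul_sub, mul_smul_comm]

/-- relations go to sections: at `x`, `mF y k t = mF (y - c • incl) k t`; `mem_Gm_of_loc` -/
theorem LocM.mF_mem {y : QS Sg β p →ₗ[ℂ] Sg.F} (h : LocM y) {k : ℕ}
    {t : QS Sg β p ⊗[ℂ] SA Sg k} (ht : mF (QS Sg β p).subtype k t = 0) :
    mF y k t ∈ SA Sg (k + p) := by
  refine (AA_nat Sg.V (k + p)).le (mem_Gm_of_loc fun x => Pnt.mem_loc_OX.2 ?_)
  obtain ⟨c, hc⟩ := h x
  have key : ∀ s : QS Sg β p ⊗[ℂ] SA Sg k, Sg.V.X.t x.i ^ (-((k : ℤ) + p)) *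
      (mF y k s - c * mF (QS Sg β p).subtype k s) ∈ x.O := fun s => by
    induction s with
    | zero => simp
    | tmul v a =>
      have := mul_mem (Pnt.AA_mem_O (x := x) ((AA_nat Sg.V k).ge a.2)) (hc v)
      rw [← zp_mul] at this
      convert this using 2
      simp only [mF_tmul, smul_eq_mul, Submodule.subtype_apply]; ring
    | add s s' hs hs' =>
      convert add_mem hs hs' using 1
      rw [map_add, map_add]; ring
  have := key t
  rw [ht, mul_zero, sub_zero] at this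
  exact_mod_cast this

end Crest.Agent.N265.M
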