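import Crest.Agent.N265.Fx.Sc
import Crest.Agent.N265.Q.Plk

/-! # Row 265, FIX layer, task FX-HART: determinants of sequences that are exact off codimension two -/

set_option autoImplicit false
noncomputable section
open MvPolynomial TensorProduct Module

namespace Crest.Agent.N265
open Alg _root_.Crest.Agent.N265.Pow GV Bun

variable {X Z : Spc} {V W W' T : GV}

namespace Hart
section LA
variable {E F G E' F' H : Type} [AddCommGroup E] [Module ℂ E] [AddCommGroup F] [Module ℂ F]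
  [AddCommGroup G] [Module ℂ G] [AddCommGroup E'] [Module ℂ E'] [AddCommGroup F'] [Module ℂ F']
  [AddCommGroup H] [Module ℂ H]

lemma tmul_ne_zero {v : E} {w : F} (hv : v ≠ 0) (hw : w ≠ 0) : v ⊗ₜ[ℂ] w ≠ 0 := fun h => by
  obtain ⟨ℓ, hℓ⟩ := Module.Projective.exists_dual_ne_zero ℂ hv
  have := congrArg (TensorProduct.lift ((LinearMap.lsmul ℂ F).comp ℓ)) h
  simp only [TensorProduct.lift.tmul, LinearMap.comp_apply, LinearMap.lsmul_apply, map_zero,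
    smul_eq_zero] at this
  exact this.elim hℓ hw

lemma finrank_ker_add (A : Submodule ℂ E) [FiniteDimensional ℂ A] (f : E →ₗ[ℂ] F) :
    finrank ℂ (A ⊓ LinearMap.ker f : Submodule ℂ E) + finrank ℂ (A.map f) = finrank ℂ A := by
  rw [← LinearMap.finrank_range_add_finrank_ker (f.domRestrict A), LinearMap.range_domRestrict,
    add_comm, LinearMap.ker_domRestrict, ← Submodule.finrank_map_subtype_eq,
    Submodule.map_comap_subtype]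

lemma finrank_map_of_inj (A : Submodule ℂ E) [FiniteDimensional ℂ A] {f : E →ₗ[ℂ] F}
    (h : ∀ u ∈ A, f u = 0 → u = 0) : finrank ℂ (A.map f) = finrank ℂ A := by
  rw [← finrank_ker_add A f, show A ⊓ LinearMap.ker f = ⊥ from
    eq_bot_iff.2 fun u hu => h u hu.1 hu.2, finrank_bot, zero_add]

lemma eq_span_of_one {A : Submodule ℂ E} (h : finrank ℂ A = 1) {v : E} (hv : v ∈ A) (h0 : v ≠ 0) :
    A = Submodule.span ℂ {v} := by
  have := FiniteDimensional.of_finrank_eq_succ h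
  exact (Submodule.eq_of_le_of_finrank_eq ((Submodule.span_singleton_le_iff_mem _ _).2 hv)
    (by rw [finrank_span_singleton h0, h])).symm

/-- `s ↦ (v ↦ (γ ↦ v ⊗ s γ))` -/
def tl (G E F : Type) [AddCommGroup E] [Module ℂ E] [AddCommGroup F] [Module ℂ F] [AddCommGroup G]
    [Module ℂ G] : (G →ₗ[ℂ] F) →ₗ[ℂ] E →ₗ[ℂ] G →ₗ[ℂ] E ⊗[ℂ] F :=
  (LinearMap.llcomp ℂ G F (E ⊗[ℂ] F) ∘ₗ TensorProduct.mk ℂ E F).flip
/-- `s ↦ (w ↦ (γ ↦ s γ ⊗ w))` -/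
def tr (G E F : Type) [AddCommGroup E] [Module ℂ E] [AddCommGroup F] [Module ℂ F] [AddCommGroup G]
    [Module ℂ G] : (G →ₗ[ℂ] E) →ₗ[ℂ] F →ₗ[ℂ] G →ₗ[ℂ] E ⊗[ℂ] F :=
  (LinearMap.llcomp ℂ G E (E ⊗[ℂ] F) ∘ₗ (TensorProduct.mk ℂ E F).flip).flip
lemma tl_apply (s : G →ₗ[ℂ] F) (v : E) (γ : G) : tl G E F s v γ = v ⊗ₜ[ℂ] s γ := rfl
lemma tr_apply (s : G →ₗ[ℂ] E) (w : F) (γ : G) : tr G E F s w γ = s γ ⊗ₜ[ℂ] w := rfl

lemma map_tl {g₁ : G →ₗ[ℂ] E} {g₂ : G →ₗ[ℂ] F} (r₁ : finrank ℂ (LinearMap.range g₁) = 1)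
    (r₂ : finrank ℂ (LinearMap.range g₂) = 1) (h : ∀ γ, g₁ γ = 0 ↔ g₂ γ = 0) :
    (LinearMap.range g₁).map (tl G E F g₂) ≠ ⊥ ∧
      (LinearMap.range g₁).map (tl G E F g₂) = (LinearMap.range g₂).map (tr G E F g₁) := by
  obtain ⟨_, ⟨γ₀, rfl⟩, h0⟩ := (LinearMap.range g₁).ne_bot_iff.1 fun e => by
    rw [e, finrank_bot] at r₁; omega
  have h0' : g₂ γ₀ ≠ 0 := fun e => h0 ((h _).2 e)
  have e₁ := eq_span_of_one r₁ ⟨γ₀, rfl⟩ h0
  have e : tl G E F g₂ (g₁ γ₀) = tr G E F g₁ (g₂ γ₀) := LinearMap.ext fun γ => by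
    obtain ⟨c, hc⟩ := Submodule.mem_span_singleton.1 (e₁.le ⟨γ, rfl⟩)
    have : g₂ (c • γ₀ - γ) = 0 := (h _).1 (by rw [map_sub, map_smul, hc, sub_self])
    rw [map_sub, map_smul, sub_eq_zero] at this
    rw [tl_apply, tr_apply, ← this, ← hc, TensorProduct.smul_tmul]
  rw [e₁, eq_span_of_one r₂ ⟨γ₀, rfl⟩ h0', Submodule.map_span, Submodule.map_span,
    Set.image_singleton, Set.image_singleton, e]
  refine ⟨fun e' => tmul_ne_zero h0 h0' ?_, rfl⟩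
  exact LinearMap.congr_fun (Submodule.span_singleton_eq_bot.1 e') γ₀

lemma mem_tens_span {y : E} {Q : Submodule ℂ F} {t : E ⊗[ℂ] F}
    (ht : t ∈ tens (Submodule.span ℂ {y}) Q) : ∃ u ∈ Q, y ⊗ₜ[ℂ] u = t := by
  refine (tens_le (N := Q.map (TensorProduct.mk ℂ E F y))).2 (fun v hv w hw => ?_) ht
  obtain ⟨c, rfl⟩ := Submodule.mem_span_singleton.1 hv
  exact ⟨c • w, Q.smul_mem c hw, (TensorProduct.smul_tmul c y w).symm⟩

lemma lamM_congr {k : ℕ} {f g : E →ₗ[ℂ] F} {A : Submodule ℂ E} (h : ∀ v ∈ A, f v = g v)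
    {y : Pow.Lam k E} (hy : y ∈ lamS k A) : lamM k f y = lamM k g y := by
  rw [lamS_eq_range] at hy
  obtain ⟨z, rfl⟩ := hy
  have : f ∘ₗ A.subtype = g ∘ₗ A.subtype := LinearMap.ext fun v => h v v.2
  rw [← LinearMap.comp_apply, ← lamM_comp, this, lamM_comp, LinearMap.comp_apply]

lemma wg_mem {k : ℕ} {A : Submodule ℂ E} {y : Pow.Lam k E} (hy : y ∈ lamS k A) {u : E} (hu : u ∈ A) :
    Plk.wg k y u ∈ lamS (k + 1) A := by
  rw [mem_lamS, pow_succ', Plk.wg_coe]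
  exact Submodule.mul_mem_mul ⟨u, hu, rfl⟩ (mem_lamS.1 hy)

lemma map_wg [FiniteDimensional ℂ E] {r : ℕ} {P U : Submodule ℂ E} (h : P ≤ U)
    (hP : finrank ℂ P = r) (hU : finrank ℂ U = r + 1) :
    (tens (lamS r P) U).map (TensorProduct.lift (Plk.wg r)) = lamS (r + 1) U := by
  refine le_antisymm (Submodule.map_le_iff_le_comap.2 (tens_le.2 fun y hy u hu =>
    wg_mem (lamS_mono r h hy) hu)) ?_
  obtain ⟨y, hy, h0⟩ := Plk.exists_plk hP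
  obtain ⟨u, hu, hu'⟩ := SetLike.exists_of_lt (lt_of_le_of_ne h fun e => by
    rw [e] at hP; omega)
  rw [Plk.lamS_eq_span_plk hU (wg_mem (lamS_mono r h hy) hu)
    (fun e => hu' (Plk.ann_eq hP hy h0 ▸ Plk.wg_eq_zero.1 e)), Submodule.span_singleton_le_iff_mem]
  exact ⟨_, tmul_mem hy hu, rfl⟩

/-- the two quotients of `Λ^r M ⊗ U'` have the same kernel -/
lemma ker_iff [FiniteDimensional ℂ F] [FiniteDimensional ℂ E'] {r : ℕ} {M : Submodule ℂ E}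
    {U' : Submodule ℂ F'} {φ : E →ₗ[ℂ] F} {π : E →ₗ[ℂ] E'} {μ : F' →ₗ[ℂ] F} {χ : F' →ₗ[ℂ] H}
    (hφ : finrank ℂ (M.map φ) = r) (hπ : finrank ℂ (M.map π) = r)
    (hk : ∀ m ∈ M, φ m = 0 → π m = 0) (hχ : ∀ u ∈ U', μ u ∈ M.map φ ↔ χ u = 0)
    {t : Pow.Lam r E ⊗[ℂ] F'} (ht : t ∈ tens (lamS r M) U') :
    TensorProduct.lift (Plk.wg r) (TensorProduct.map (lamM r φ) μ t) = 0 ↔
      TensorProduct.map (lamM r π) χ t = 0 := by
  obtain ⟨j, hj⟩ := exists_comp_of_ker_le (φ := φ ∘ₗ M.subtype) (ψ := π ∘ₗ M.subtype)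
    fun m hm => hk m m.2 hm
  have hj' : ∀ m ∈ M, π m = (j ∘ₗ φ) m := fun m hm => (LinearMap.congr_fun hj ⟨m, hm⟩).symm
  obtain ⟨y, hy, h0⟩ := Plk.exists_plk hφ
  have e := Plk.lamS_eq_span_plk hφ hy h0
  have h1 : lamM r j y ≠ 0 := fun h => by
    have := Plk.finrank_lamS_self hπ
    have e' : M.map π = (M.map φ).map j := by
      rw [← Submodule.map_comp]
      exact SetLike.coe_injective (Set.image_congr hj')
    rw [e', ← lamS_map, e,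
      Submodule.map_span, Set.image_singleton, h, Submodule.span_zero_singleton] at this
    simp at this
  obtain ⟨u, hu, hyu⟩ := mem_tens_span (y := y) (Q := U')
    (t := TensorProduct.map (lamM r φ) LinearMap.id t)
    (tmap_mem (fun v hv => e.le (lamM_mem r (fun m hm => Submodule.mem_map_of_mem hm) hv))
      (fun _ h => h) ht)
  have e1 : TensorProduct.map (lamM r φ) μ t = y ⊗ₜ[ℂ] μ u := by
    have := congrArg (TensorProduct.map LinearMap.id μ) hyu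
    rw [← LinearMap.comp_apply, ← TensorProduct.map_comp] at this
    exact this.symm
  have e2 : TensorProduct.map (lamM r π) χ t = lamM r j y ⊗ₜ[ℂ] χ u := by
    have := congrArg (TensorProduct.map (lamM r j) χ) hyu
    rw [← LinearMap.comp_apply, ← TensorProduct.map_comp, ← lamM_comp] at this
    refine Eq.trans ?_ this.symm
    exact tens_eqOn (U := Pow.Lam r E' ⊗[ℂ] H) (f := TensorProduct.map (lamM r π) χ)
      (g := TensorProduct.map (lamM r (j ∘ₗ φ)) (χ ∘ₗ LinearMap.id))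
      (fun v hv w _ => congrArg (· ⊗ₜ[ℂ] χ w) (lamM_congr hj' hv)) ht
  rw [e1, e2, TensorProduct.lift.tmul, Plk.wg_eq_zero, Plk.ann_eq hφ hy h0, hχ u hu]
  exact ⟨fun h => by rw [h, TensorProduct.tmul_zero], fun h => by_contra fun h' =>
    tmul_ne_zero h1 h' h⟩
end LA

/-- basis-free form of `kl_hartogs` -/
theorem kc_eq_of_map {n : ℕ} (hX : X.Sm n) (hZ : Z.Sub X) (hc : ∀ z ∈ Z.pts, Z.ldim z + 2 ≤ n)
    {L₁ : Pt → Submodule ℂ V.V} {L₂ : Pt → Submodule ℂ W.V} (h₁ : IsAB X V L₁) (h₂ : IsAB X W L₂)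
    (r₁ : ∀ x ∈ X.pts, finrank ℂ (L₁ x) = 1) (r₂ : ∀ x ∈ X.pts, finrank ℂ (L₂ x) = 1)
    (hT : T.In X.B) {f₁ : Pt → V.V →ₗ[ℂ] T.V} {f₂ : Pt → W.V →ₗ[ℂ] T.V} (hf₁ : IsRM X V T f₁)
    (hf₂ : IsRM X W T f₂) (h : ∀ x ∈ X.pts, x ∉ Z.pts → (L₁ x).map (f₁ x) ≠ ⊥ ∧
      (L₁ x).map (f₁ x) = (L₂ x).map (f₂ x)) : kc X V L₁ = kc X W L₂ := by
  obtain ⟨A, hA⟩ := h₁.exists_pres
  obtain ⟨B, hB⟩ := h₂.exists_pres
  obtain ⟨m, u, e, -, hu⟩ := hT.exists_basis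
  rw [← hA.kl, ← hB.kl]
  have rA : A.Rk 1 := fun x hx => (hA.finrank hx).trans (r₁ x hx)
  have rB : B.Rk 1 := fun x hx => (hB.finrank hx).trans (r₂ x hx)
  obtain ⟨b, hb, hb'⟩ := hA
  obtain ⟨c, hc', hc''⟩ := hB
  obtain ⟨f, hf, hf'⟩ := hf₁.exists_mat b u hb hu
  obtain ⟨g, hg, hg'⟩ := hf₂.exists_mat c u hc' hu
  refine kl_hartogs hX hZ hc rA rB e f g hf hg fun x hx hx' => ?_
  rw [hb' x hx, hc'' x hx, AB.map_transfer (hf' x hx), AB.map_transfer (hg' x hx),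
    ← (h x hx hx').2]
  exact ⟨fun e => (h x hx hx').1 (Submodule.map_eq_bot_iff.1 e), rfl⟩
end Hart
open Hart

/-- Two line bundles that are quotients of one bundle `N` off codimension two, with the same kernel.
Let `ρ : G → N` be onto (`IsAB.exists_range`), `g_i = f_i ∘ ρ`.  Apply `kl_hartogs` (presentations,
`IsRM.exists_mat`) to `L₁ → Hom(G, V ⊗ W)`, `v ↦ (γ ↦ v ⊗ g₂ γ)` and `L₂ → Hom(G, V ⊗ W)`,
`w ↦ (γ ↦ g₁ γ ⊗ w)`: off `Z` one has `g_i = ℓ(·) q_i` with the same covector `ℓ ≠ 0`. -/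
theorem kc_hartogs {n : ℕ} (hX : X.Sm n) (hZ : Z.Sub X) (hc : ∀ z ∈ Z.pts, Z.ldim z + 2 ≤ n)
    {N : Pt → Submodule ℂ T.V} {L₁ : Pt → Submodule ℂ V.V} {L₂ : Pt → Submodule ℂ W.V}
    (hN : IsAB X T N) (h₁ : IsAB X V L₁) (h₂ : IsAB X W L₂)
    (r₁ : ∀ x ∈ X.pts, finrank ℂ (L₁ x) = 1) (r₂ : ∀ x ∈ X.pts, finrank ℂ (L₂ x) = 1)
    {f₁ : Pt → T.V →ₗ[ℂ] V.V} {f₂ : Pt → T.V →ₗ[ℂ] W.V} (hf₁ : IsRM X T V f₁) (hf₂ : IsRM X T W f₂)
    (h : ∀ x ∈ X.pts, x ∉ Z.pts → (N x).map (f₁ x) = L₁ x ∧ (N x).map (f₂ x) = L₂ x ∧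
      ∀ t ∈ N x, f₁ x t = 0 ↔ f₂ x t = 0) : kc X V L₁ = kc X W L₂ := by
  obtain ⟨G, ρ, hG, hρ, e⟩ := hN.exists_range
  refine kc_eq_of_map (T := G.hom (V.tens W)) hX hZ hc h₁ h₂ r₁ r₂ (hG.hom (h₁.hin.tens h₂.hin))
    (IsRM.of_bilin (isRM_iff.1 (hf₂.comp hρ)) (tl G.V V.V W.V) fun _ _ => rfl)
    (IsRM.of_bilin (isRM_iff.1 (hf₁.comp hρ)) (tr G.V V.V W.V) fun _ _ => rfl) fun x hx hx' => ?_
  obtain ⟨e₁, e₂, e₃⟩ := h x hx hx'
  rw [← e x hx, ← LinearMap.range_comp] at e₁ e₂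
  rw [← e₁, ← e₂]
  exact map_tl (e₁ ▸ r₁ x hx) (e₂ ▸ r₂ x hx) fun γ => e₃ _ (e x hx ▸ ⟨γ, rfl⟩)

/-- A sequence `0 → M/M' → U → L → 0`; the second map is defined on a copy `U' ≅ U`. -/
structure Seq (X : Spc) (V W W' T : GV) (M M' : Pt → Submodule ℂ V.V) (U : Pt → Submodule ℂ W.V)
    (U' : Pt → Submodule ℂ W'.V) (L : Pt → Submodule ℂ T.V) (φ : Pt → V.V →ₗ[ℂ] W.V)
    (μ : Pt → W'.V →ₗ[ℂ] W.V) (χ : Pt → W'.V →ₗ[ℂ] T.V) (r : ℕ) : Prop where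
  hM : IsAB X V M
  hM' : IsAB X V M'
  hU : IsAB X W U
  hU' : IsAB X W' U'
  hL : IsAB X T L
  hφ : IsRM X V W φ
  hμ : IsRM X W' W μ
  hχ : IsRM X W' T χ
  le : ∀ x ∈ X.pts, M' x ≤ M x
  rM : ∀ x ∈ X.pts, finrank ℂ (M x) = finrank ℂ (M' x) + r
  rU : ∀ x ∈ X.pts, finrank ℂ (U x) = r + 1
  rL : ∀ x ∈ X.pts, finrank ℂ (L x) = 1
  kill : ∀ x ∈ X.pts, ∀ m ∈ M' x, φ x m = 0
  into : ∀ x ∈ X.pts, ∀ m ∈ M x, φ x m ∈ U x
  inj : ∀ x ∈ X.pts, ∀ u ∈ U' x, μ x u = 0 → u = 0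
  onto : ∀ x ∈ X.pts, (U' x).map (μ x) = U x
  val : ∀ x ∈ X.pts, ∀ u ∈ U' x, χ x u ∈ L x

namespace Seq
variable {M M' : Pt → Submodule ℂ V.V} {U : Pt → Submodule ℂ W.V} {U' : Pt → Submodule ℂ W'.V}
  {L : Pt → Submodule ℂ T.V} {φ : Pt → V.V →ₗ[ℂ] W.V} {μ : Pt → W'.V →ₗ[ℂ] W.V}
  {χ : Pt → W'.V →ₗ[ℂ] T.V} {r : ℕ}

/-- count dimensions: `μ (U' ⊓ ker χ) ≤ φ M`, the left side has dimension `r`, the right side `≤ r` -/
theorem exact (h : Seq X V W W' T M M' U U' L φ μ χ r) {x : Pt} (hx : x ∈ X.pts)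
    (h0 : ∃ u ∈ U' x, χ x u ≠ 0) (h1 : ∀ u ∈ U' x, χ x u = 0 → μ x u ∈ (M x).map (φ x)) :
    M x ⊓ LinearMap.ker (φ x) = M' x ∧ finrank ℂ ((M x).map (φ x)) = r ∧
      (U' x ⊓ LinearMap.ker (χ x)).map (μ x) = (M x).map (φ x) ∧ (U' x).map (χ x) = L x := by
  obtain ⟨u, hu, h0⟩ := h0
  have e4 : (U' x).map (χ x) = L x := le_antisymm (Submodule.map_le_iff_le_comap.2 (h.val x hx))
    (by rw [eq_span_of_one (h.rL x hx) (h.val x hx u hu) h0, Submodule.span_singleton_le_iff_mem]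
        exact ⟨u, hu, rfl⟩)
  have d1 := finrank_map_of_inj (U' x) (h.inj x hx)
  have d2 := finrank_ker_add (U' x) (χ x)
  have d3 := finrank_map_of_inj (U' x ⊓ LinearMap.ker (χ x)) fun u hu => h.inj x hx u hu.1
  have d4 := finrank_ker_add (M x) (φ x)
  have l1 : (U' x ⊓ LinearMap.ker (χ x)).map (μ x) ≤ (M x).map (φ x) :=
    Submodule.map_le_iff_le_comap.2 fun u hu => h1 u hu.1 hu.2
  have l2 : M' x ≤ M x ⊓ LinearMap.ker (φ x) := le_inf (h.le x hx) (h.kill x hx)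
  have d5 := Submodule.finrank_mono l1
  have d6 := Submodule.finrank_mono l2
  rw [h.onto x hx, h.rU x hx] at d1
  rw [e4, h.rL x hx] at d2
  rw [h.rM x hx] at d4
  exact ⟨(Submodule.eq_of_le_of_finrank_eq l2 (by omega)).symm, by omega,
    Submodule.eq_of_le_of_finrank_eq l1 (by omega), e4⟩

/-- exact everywhere (`kc_map`, `kc_iso`) -/
theorem kc_eq (h : Seq X V W W' T M M' U U' L φ μ χ r)
    (he : ∀ x ∈ X.pts, (∃ u ∈ U' x, χ x u ≠ 0) ∧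
      ∀ u ∈ U' x, χ x u = 0 → μ x u ∈ (M x).map (φ x)) :
    kc X W U = kc X T L + (kc X V M - kc X V M') := by
  have ex := fun x hx => h.exact hx (he x hx).1 (he x hx).2
  have hm := h.hL.congr fun x hx => (ex x hx).2.2.2.symm
  have hP := h.hM.map_of_rk h.hU.hin h.hφ fun x hx => (ex x hx).2.1
  rw [← kc_iso h.hU' h.hU h.hμ fun x hx =>
      ⟨eq_bot_iff.2 fun u hu => h.inj x hx u hu.1 hu.2, h.onto x hx⟩,
    kc_map h.hU' h.hχ hm, kc_map h.hM h.hφ hP, kc_congr fun x hx => (ex x hx).2.2.2,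
    kc_congr fun x hx => (ex x hx).1, kc_iso (h.hU'.ker_of_map h.hχ hm) hP h.hμ fun x hx =>
      ⟨eq_bot_iff.2 fun u hu => h.inj x hx u hu.1.1 hu.2, (ex x hx).2.2.1⟩]
  ring

/-- Exact off codimension two. Take `π` from `IsAB.exists_sq` (`ker π = M'`), `B` presenting `π M`,
and apply `kc_hartogs` to `N = Λ^r M ⊗ U'`, `f₁ = wg ∘ (Λ^r φ ⊗ μ)` onto `Λ^(r+1) U`,
`f₂ = Λ^r π ⊗ χ` onto `Λ^r (π M) ⊗ L`. Off `Z` there is `j` with `j ∘ φ = π` on `M`, and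
`(Λ^r φ ⊗ 1) t = y ⊗ u` for a Plücker vector `y` of `φ M` (`Plk.lamS_eq_span_plk`, `Plk.ann_eq`,
`Plk.wg_eq_zero`); `Pres.kl_det`, `kc_tens`. -/
theorem det (h : Seq X V W W' T M M' U U' L φ μ χ r) {n : ℕ} (hX : X.Sm n) (hZ : Z.Sub X)
    (hc : ∀ z ∈ Z.pts, Z.ldim z + 2 ≤ n)
    (he : ∀ x ∈ X.pts, x ∉ Z.pts → (∃ u ∈ U' x, χ x u ≠ 0) ∧
      ∀ u ∈ U' x, χ x u = 0 → μ x u ∈ (M x).map (φ x)) :
    ∃ (A B : Bun X) (hA : A.Rk (r + 1)) (hB : B.Rk r), A.kl = kc X W U ∧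
      B.kl = kc X V M - kc X V M' ∧ (A.det _ hA).kl = kc X T L * (B.det _ hB).kl := by
  obtain ⟨W₀, π, hπ, hP, hk, hkc⟩ := h.hM.exists_sq h.hM' h.le
  obtain ⟨A, hA⟩ := h.hU.exists_pres
  obtain ⟨B, hB⟩ := hP.exists_pres
  have rP : ∀ x ∈ X.pts, finrank ℂ ((M x).map (π x)) = r := fun x hx => by
    have := finrank_ker_add (M x) (π x)
    rw [hk x hx, inf_eq_right.2 (h.le x hx), h.rM x hx] at this
    omega
  have rA : A.Rk (r + 1) := fun x hx => (hA.finrank hx).trans (h.rU x hx)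
  have rB : B.Rk r := fun x hx => (hB.finrank hx).trans (rP x hx)
  refine ⟨A, B, rA, rB, hA.kl, hB.kl.trans hkc, ?_⟩
  rw [hA.kl_det, hB.kl_det, mul_comm, ← kc_tens (hP.lamS r) h.hL]
  have hw : Deg0 ((lam r W).tens W) (lam (r + 1) W) (TensorProduct.lift (Plk.wg r)) := fun t => by
    induction t using TensorProduct.induction_on with
    | zero => simp only [map_zero]
    | tmul y w => exact Plk.wg_lamM r W.g.toLinearMap y w
    | add a b ha hb => simp only [map_add, ha, hb]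
  refine kc_hartogs hX hZ hc ((h.hM.lamS r).tens h.hU') (h.hU.lamS _) ((hP.lamS r).tens h.hL)
    (fun x hx => Plk.finrank_lamS_self (h.rU x hx))
    (fun x hx => by rw [finrank_tens, Plk.finrank_lamS_self (rP x hx), h.rL x hx])
    ((IsRM.const hw).comp ((h.hφ.lamM r).tensor h.hμ)) ((hπ.lamM r).tensor h.hχ) fun x hx hx' => ?_
  obtain ⟨e1, e2, e3, e4⟩ := h.exact hx (he x hx hx').1 (he x hx hx').2
  refine ⟨?_, ?_, fun t ht => ker_iff e2 (rP x hx) (fun m hm h0 => ?_) (fun u hu => ?_) ht⟩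
  · rw [Submodule.map_comp, tens_map, lamS_map, h.onto x hx]
    exact map_wg (Submodule.map_le_iff_le_comap.2 (h.into x hx)) e2 (h.rU x hx)
  · rw [tens_map, lamS_map, e4]
  · exact (hk x hx).ge (e1.le ⟨hm, h0⟩)
  · refine ⟨fun hm => ?_, (he x hx hx').2 u hu⟩
    obtain ⟨u', hu', e⟩ := e3.ge hm
    have := h.inj x hx _ (sub_mem hu hu'.1) (by rw [map_sub, e, sub_self])
    rw [sub_eq_zero.1 this]
    exact hu'.2
end Seq

end Crest.Agent.N265
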