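import Crest.Agent.N265.M.TV
import Crest.Agent.N265.M.Ty
import Crest.Agent.N265.Fx.Sc

/-! # Row 265, M-FIX (helper94): families of ideals, basic facts -/

set_option autoImplicit false
set_option linter.dupNamespace false
noncomputable section
open MvPolynomial Module TensorProduct

namespace Crest.Agent.N265.M
open Crest.Agent.R274
open Defs_781 Lat_781 SnapA_99 SnapB_99 SnapE_99 Gen7_750 Xs1_781 SkDefs_474
open Alg GV Br N Fib _root_.Crest.Agent.N265.Pow
variable {Sg : Surf} {X Y : Spc} {p : ℕ} {β β' : Sg.V.G} {n n' : ℕ} {k k' : ℤ}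
  {I J : Pt → XL Sg Sg.F}

namespace IFam
lemma pull (h : IFam X p β n k I) (q : Proj Y X) : IFam Y p β n k fun y => I (restr X.B y) :=
  ⟨h.fam.pull q, fun y hy => h.ty _ (q.map y hy)⟩
lemma le (h : IFam X p β n k I) {x : Pt} (hx : x ∈ X.pts) : LeL (I x) (OX Sg.V.X) :=
  fun J hJ => (h.fam.le x hx J hJ).trans (r1_O k J hJ).le
lemma finrank_pc (h : IFam X p β n k I) {x : Pt} (hx : x ∈ X.pts) :
    finrank ℂ ((r1 Sg k).pc (I x) p) = Uni.rkU Sg p β n :=
  (h.ty x hx).finrank_pc (h.le hx) (h.fam.reg x hx)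
end IFam

end Crest.Agent.N265.M
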