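import Crest.Agent.N265.Fx.I0
import Crest.Agent.N265.Fx.Glue
import Crest.Agent.N265.Fx.Hart

/-!
# Row 265, M-FIX, task FX-LAM: the determinant line `l` and its dual

`U = pc I p`, `Q = Γ(O(-β)(p))`, `s` the equation of the divisorial part.  `HL` = maps `W → Q` whose
restriction to `U` is a multiplication, i.e. a constant multiple of `s⁻¹`; `H0` = maps that kill `U`.
-/

set_option autoImplicit false
set_option linter.dupNamespace false
noncomputable section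
open MvPolynomial Module TensorProduct

namespace Crest.Agent.N265.M
open Crest.Agent.R274
open Defs_781 Lat_781 SnapA_99 SnapB_99 SnapE_99 Gen7_750 Xs1_781 SkDefs_474
open Alg GV Br N Fib _root_.Crest.Agent.N265.Pow

variable {Sg : Surf} {X : Spc} {p : ℕ} {β β' : Sg.V.G} {n n' : ℕ} {k k' : ℤ}

/-- `Q t^k` -/
abbrev QG (Sg : Surf) (β : Sg.V.G) (p : ℕ) (k : ℤ) : GV := (triv (QS Sg β p)).shift (k • eT)
/-- `Hom(W, Q)` -/
abbrev LH (Sg : Surf) (β : Sg.V.G) (p : ℕ) (k : ℤ) : GV := ((r1 Sg k).G p).hom (QG Sg β p k)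
/-- maps that are multiplications on `U` -/
def HL (β : Sg.V.G) (p : ℕ) (k : ℤ) (I : XL Sg Sg.F) : Submodule ℂ (LH Sg β p k).V where
  carrier := {θ | ∀ u ∈ (r1 Sg k).pc I p, ∀ u' ∈ (r1 Sg k).pc I p,
    (θ u).1 * (r1 Sg k).inc p u' = (θ u').1 * (r1 Sg k).inc p u}
  add_mem' := fun h h' u hu u' hu' => by
    simp only [LinearMap.add_apply, Submodule.coe_add, add_mul, h u hu u' hu', h' u hu u' hu']
  zero_mem' := fun u _ u' _ => by simp
  smul_mem' := fun c _ h u hu u' hu' => by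
    simp only [LinearMap.smul_apply, Submodule.coe_smul, smul_mul_assoc, h u hu u' hu']
/-- maps that kill `U` -/
def H0 (β : Sg.V.G) (p : ℕ) (k : ℤ) (I : XL Sg Sg.F) : Submodule ℂ (LH Sg β p k).V :=
  homMap ((r1 Sg k).pc I p) ⊥

namespace FxL
variable {I J : XL Sg Sg.F}
lemma mem_HL' {θ : (LH Sg β p k).V} : θ ∈ HL β p k I ↔ ∀ u ∈ (r1 Sg k).pc I p,
    ∀ u' ∈ (r1 Sg k).pc I p, (θ u).1 * (r1 Sg k).inc p u' = (θ u').1 * (r1 Sg k).inc p u := Iff.rfl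
lemma mem_H0 {θ : (LH Sg β p k).V} : θ ∈ H0 β p k I ↔ ∀ u ∈ (r1 Sg k).pc I p, θ u = 0 := Iff.rfl
lemma HL_congr (e : (r1 Sg k).pc I p = (r1 Sg k).pc J p) : HL β p k I = HL β p k J :=
  Submodule.ext fun θ => by rw [mem_HL', mem_HL', e]
lemma le_O (le : LeL I (OX Sg.V.X)) (k : ℤ) : LeL I (r1 Sg k).O :=
  Fam.LE.trans le (r1_O k).symm.le
lemma mem_Gm_div {D : Sg.V.G} {f : Sg.F} (hf : f ≠ 0) {e : ℤ} {x : Sg.F} :
    x ∈ Gm (OL Sg.V.T (D + Sg.V.div f hf)).toLat e ↔ f * x ∈ Gm (OL Sg.V.T D).toLat e := by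
  rw [mem_Gm, mem_Gm]
  refine forall_congr' fun i => ?_
  refine (Ch.mem_O_div D hf (Finset.singleton_nonempty i) _).trans ?_
  rw [smul_eq_mul, smul_eq_mul, mul_left_comm]; rfl
lemma mem_QS {s : Sg.F} (hs : s ≠ 0) {x : Sg.F} :
    x ∈ QS Sg β p ↔ s * x ∈ Gm (OL Sg.V.T (-(β + Sg.V.div s hs))).toLat p := by
  rw [← mem_Gm_div hs, neg_add, neg_add_cancel_right]
/-- **Hartogs**: a multiplier of `U` into the hull is constant -/
lemma const_of_mul {D : Sg.V.G} (h : FC I (OL Sg.V.T D)) (le : LeL I (OX Sg.V.X))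
    (hr : RegL I.toLat p) {c : Sg.F}
    (hc : ∀ u ∈ (r1 Sg k).pc I p, c * (r1 Sg k).inc p u ∈ Gm (OL Sg.V.T D).toLat p) :
    ∃ a : ℂ, algebraMap ℂ Sg.F a = c := by
  by_cases h0 : c = 0
  · exact ⟨0, by rw [h0, map_zero]⟩
  have h1 := le_of_FC h (Amb.le_of_pc (𝔞 := r1 Sg k) (L₁ := OL Sg.V.T (D + Sg.V.div c h0))
    (le_O le k) hr le_rfl fun u hu => Amb.mem_pc.2 ((mem_Gm_div h0).2 (hc u hu)))
  refine Ch.const_of_sec (V := Sg.V) (Ch.sec_zero_iff.2 fun v => (Sg.V.pl.pl v).mem_O_of ?_)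
  have := h1 v
  rw [Finsupp.add_apply, Ch.div_apply] at this
  omega
lemma exists_ne (h : Ty I β n) (le : LeL I (OX Sg.V.X)) (hr : RegL I.toLat p) (k : ℤ) :
    ∃ u ∈ (r1 Sg k).pc I p, u ≠ 0 := by
  refine (Submodule.ne_bot_iff _).1 fun e => ?_
  have h1 := h.rkU_pos le hr
  rw [← h.finrank_pc (k := k) le hr, e, finrank_bot] at h1
  omega
lemma mul_mem_SA (a : SB Sg β) (q : QS Sg β p) : a.1 * q.1 ∈ SA Sg p := by
  have h1 := Chg1_750.sec_mul a.2 ((Gm_OL Sg.V (-β) p).le q.2)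
  rwa [add_neg_cancel_left, natCast_zsmul] at h1
/-- `a ⊗ q ↦ a q` -/
def mQ (β : Sg.V.G) (p : ℕ) (k : ℤ) : SB Sg β →ₗ[ℂ] QS Sg β p →ₗ[ℂ] ((r1 Sg k).G p).V :=
  LinearMap.mk₂ ℂ (fun a q _ => ⟨a.1 * q.1, mul_mem_SA a q⟩)
    (fun _ _ _ => _root_.funext fun _ => Subtype.ext (add_mul _ _ _))
    (fun _ _ _ => _root_.funext fun _ => Subtype.ext (smul_mul_assoc _ _ _))
    (fun _ _ _ => _root_.funext fun _ => Subtype.ext (mul_add _ _ _))
    fun _ _ _ => _root_.funext fun _ => Subtype.ext (mul_smul_comm _ _ _)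
lemma inc_mQ (a : SB Sg β) (q : QS Sg β p) : (r1 Sg k).inc p (mQ β p k a q) = a.1 * q.1 := rfl
/-- `θ ↦ (u ⊗ u' ↦ θ u u' - u θ u')` -/
def fL (β : Sg.V.G) (p : ℕ) (k : ℤ) :
    (LH Sg β p k).V →ₗ[ℂ] ((r1 Sg k).G p).V ⊗[ℂ] ((r1 Sg k).G p).V →ₗ[ℂ] Sg.F where
  toFun θ :=
    LinearMap.mul' ℂ Sg.F ∘ₗ TensorProduct.map ((QS Sg β p).subtype ∘ₗ θ) ((r1 Sg k).inc p) -
      LinearMap.mul' ℂ Sg.F ∘ₗ TensorProduct.map ((r1 Sg k).inc p) ((QS Sg β p).subtype ∘ₗ θ)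
  map_add' θ θ' := by
    rw [LinearMap.comp_add, TensorProduct.map_add_left, TensorProduct.map_add_right,
      LinearMap.comp_add, LinearMap.comp_add, add_sub_add_comm]
  map_smul' c θ := by
    rw [LinearMap.comp_smul, TensorProduct.map_smul_left, TensorProduct.map_smul_right,
      LinearMap.comp_smul, LinearMap.comp_smul, RingHom.id_apply]
    exact (smul_sub c _ _).symm
lemma fL_tmul (θ : (LH Sg β p k).V) (u u' : ((r1 Sg k).G p).V) : fL β p k θ (u ⊗ₜ u') =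
    (θ u).1 * (r1 Sg k).inc p u' - (θ u').1 * (r1 Sg k).inc p u := by
  rw [mul_comm (θ u').1]; rfl
lemma HL_eq : HL β p k I = killer (fL β p k) (tens ((r1 Sg k).pc I p) ((r1 Sg k).pc I p)) :=
  Submodule.ext fun θ => ⟨fun h => (tens_le (N := LinearMap.ker (fL β p k θ))).2 fun u hu u' hu' =>
      (fL_tmul θ u u').trans (sub_eq_zero.2 (h u hu u' hu')),
    fun h u hu u' hu' => sub_eq_zero.1 ((fL_tmul θ u u').symm.trans (h _ (tmul_mem hu hu')))⟩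
lemma sc_LH : (LH Sg β p k).Sc (k • eT - k • eT) := (TV0.sc_G k p).hom (sc_shift _ _)
lemma kT (B : Finset ℕ) (k : ℤ) : k • eT ∈ DS B := zsmul_mem (eT_mem B) k
end FxL
open FxL

section fib
variable {I : XL Sg Sg.F}
lemma H0_le_HL : H0 β p k I ≤ HL β p k I := fun θ h u hu u' hu' => by
  rw [mem_H0.1 h u hu, mem_H0.1 h u' hu', Submodule.coe_zero, zero_mul, zero_mul]
/-- the equation (`eff_of_FC`, `mem_SB_iff`, `lS_eq_span`) -/
lemma Ty.exists_eqn (h : Ty I β n) (le : LeL I (OX Sg.V.X)) : ∃ (s : SB Sg β) (hs : s.1 ≠ 0),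
    FC I (OL Sg.V.T (-(β + Sg.V.div s.1 hs))) ∧ lS β I = Submodule.span ℂ {s} := by
  obtain ⟨f, hf, h1, -⟩ := h
  exact ⟨⟨f, (mem_SB_iff hf).2 (eff_of_FC h1 le)⟩, hf, h1, lS_eq_span h1⟩
variable {s : Sg.F} {hs : s ≠ 0}
/-- `s⁻¹ U ≤ Q`; extend to `W` -/
lemma exists_HL (h : FC I (OL Sg.V.T (-(β + Sg.V.div s hs)))) : ∃ θ ∈ HL β p k I,
    ∀ u ∈ (r1 Sg k).pc I p, (θ u).1 = s⁻¹ * (r1 Sg k).inc p u := by
  obtain ⟨θ, hθ⟩ := LinearMap.exists_extend (p := (r1 Sg k).pc I p)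
    (LinearMap.codRestrict (QS Sg β p)
      (LinearMap.mulLeft ℂ s⁻¹ ∘ₗ (r1 Sg k).inc p ∘ₗ ((r1 Sg k).pc I p).subtype) fun u =>
        (mem_QS hs).2 (by
          change s * (s⁻¹ * (r1 Sg k).inc p u.1) ∈ _
          rw [mul_inv_cancel_left₀ hs]
          exact Gm_mono h.le _ u.2))
  have e : ∀ u ∈ (r1 Sg k).pc I p, (θ u).1 = s⁻¹ * (r1 Sg k).inc p u := fun u hu =>
    congrArg Subtype.val (LinearMap.congr_fun hθ ⟨u, hu⟩)
  exact ⟨θ, fun u hu u' hu' => by rw [e u hu, e u' hu']; ring, e⟩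
/-- `θ = c ·` on `U ≠ 0` with `c ∈ F`; `c U ≤ Q` and regularity give `c I ≤ OL (-β)`, Hartogs
(`FC.maps_of_s2`) gives `c s ∈ H⁰(O) = ℂ` -/
lemma mem_HL (h : FC I (OL Sg.V.T (-(β + Sg.V.div s hs)))) (le : LeL I (OX Sg.V.X))
    (hr : RegL I.toLat p) {θ : (LH Sg β p k).V} : θ ∈ HL β p k I ↔
      ∃ c : ℂ, ∀ u ∈ (r1 Sg k).pc I p, (θ u).1 = c • (s⁻¹ * (r1 Sg k).inc p u) := by
  refine ⟨fun hθ => ?_, fun ⟨c, e⟩ u hu u' hu' => by
    rw [e u hu, e u' hu', smul_mul_assoc, smul_mul_assoc, mul_right_comm]⟩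
  by_cases h0 : ∃ u₀ ∈ (r1 Sg k).pc I p, (r1 Sg k).inc p u₀ ≠ 0
  · obtain ⟨u₀, hu₀, h0⟩ := h0
    have e : ∀ u ∈ (r1 Sg k).pc I p,
        (θ u).1 = (θ u₀).1 / (r1 Sg k).inc p u₀ * (r1 Sg k).inc p u := fun u hu => by
      rw [div_mul_eq_mul_div, eq_div_iff h0]; exact hθ u hu u₀ hu₀
    obtain ⟨a, ha⟩ := const_of_mul (k := k) h le hr (c := s * ((θ u₀).1 / (r1 Sg k).inc p u₀))
      fun u hu => by rw [mul_assoc, ← e u hu]; exact (mem_QS hs).1 (θ u).2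
    refine ⟨a, fun u hu => ?_⟩
    rw [Algebra.smul_def, ha, e u hu, mul_mul_mul_comm, mul_inv_cancel₀ hs, one_mul]
  · refine ⟨0, fun u hu => ?_⟩
    have h1 : u = 0 := (r1 Sg k).inc_inj p (by
      rw [map_zero]; by_contra e; exact h0 ⟨u, hu, e⟩)
    rw [h1, map_zero, zero_smul, Submodule.coe_zero]
lemma Ty.finrank_HL (h : Ty I β n) (le : LeL I (OX Sg.V.X)) (hr : RegL I.toLat p) :
    finrank ℂ (HL β p k I) = finrank ℂ (H0 β p k I) + 1 := by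
  obtain ⟨s, hs, h1, -⟩ := h.exists_eqn le
  obtain ⟨θ, hθ, e⟩ := exists_HL (p := p) (k := k) h1
  obtain ⟨u, hu, h0⟩ := exists_ne h le hr k
  have h2 : θ ∉ H0 β p k I := fun h2 => h0 ((r1 Sg k).inc_inj p (by
    have := e u hu
    rw [mem_H0.1 h2 u hu, Submodule.coe_zero, zero_eq_mul] at this
    rw [map_zero, this.resolve_left (inv_ne_zero hs)]))
  rw [← Submodule.finrank_sup_span_singleton h2]
  refine congrArg (fun N : Submodule ℂ (LH Sg β p k).V => finrank ℂ N) (le_antisymm (fun η hη => ?_)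
    (sup_le H0_le_HL ((Submodule.span_singleton_le_iff_mem _ _).2 hθ)))
  obtain ⟨c, hc⟩ := (mem_HL h1 le hr).1 hη
  refine Submodule.mem_sup.2 ⟨η - c • θ, fun v hv => Subtype.ext ?_, c • θ,
    Submodule.smul_mem _ _ (Submodule.mem_span_singleton_self _), sub_add_cancel _ _⟩
  change (η v).1 - c • (θ v).1 = 0
  rw [hc v hv, e v hv, sub_self]
/-- `a s⁻¹ U ≤ U` forces `a s⁻¹ ∈ ℂ` (as above) -/
lemma Ty.mem_lS (h : Ty I β n) (le : LeL I (OX Sg.V.X)) (hr : RegL I.toLat p) {a : SB Sg β} :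
    a ∈ lS β I ↔ ∀ θ ∈ HL β p k I, ∀ u ∈ (r1 Sg k).pc I p, a.1 * (θ u).1 ∈ Gm I.toLat p := by
  obtain ⟨s, hs, h1, h2⟩ := h.exists_eqn le
  rw [h2, Submodule.mem_span_singleton]
  refine ⟨?_, fun H => ?_⟩
  · rintro ⟨c, rfl⟩ θ hθ u hu
    obtain ⟨c', hc⟩ := (mem_HL h1 le hr).1 hθ
    rw [hc u hu, Submodule.coe_smul, smul_mul_assoc, mul_smul_comm, mul_inv_cancel_left₀ hs]
    exact Submodule.smul_mem _ _ (Submodule.smul_mem _ _ hu)
  · obtain ⟨θ, hθ, e⟩ := exists_HL (p := p) (k := k) h1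
    obtain ⟨c, hc⟩ := const_of_mul (k := k) h1 le hr (c := a.1 * s.1⁻¹) fun u hu => by
      rw [mul_assoc, ← e u hu]; exact Gm_mono h1.le _ (H θ hθ u hu)
    refine ⟨c, Subtype.ext ?_⟩
    rw [Submodule.coe_smul, Algebra.smul_def, hc, inv_mul_cancel_right₀ hs]
end fib

namespace IFam
variable {I J : Pt → XL Sg Sg.F}
/-- `IsAB.homMap` -/
theorem isAB_H0 (h : IFam X p β n k I) : IsAB X (LH Sg β p k) fun x => H0 β p k (I x) :=
  (h.fam.ab p le_rfl).homMap (IsAB.bot ((sc_shift _ _).in_ (kT _ k)))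
lemma pc_gpt (h : IFam X p β n k I) {x : Pt} (hx : x ∈ X.pts) :
    (r1 Sg k).pc (I (gpt x)) p = (r1 Sg k).pc (I x) p :=
  (TV0.sc_G k p).eqv_iff.1 (h.fam.ab p le_rfl).eqv' x hx
/-- `HL = killer f (tens U U)`, `GenA.killer`, constant rank (`finrank_HL`), `Sc.isAB` /
`isAB_of_cog` -/
theorem isAB_HL (h : IFam X p β n k I) : IsAB X (LH Sg β p k) fun x => HL β p k (I x) := by
  have hU := (h.fam.ab p le_rfl).gen
  refine sc_LH.isAB (sub_mem (kT _ k) (kT _ k))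
    ((((hU.tens hU).killer (fL β p k)).congr fun x _ => HL_eq.symm).alg_of_usc fun x hx => ?_)
    fun x hx => HL_congr (h.pc_gpt hx)
  obtain ⟨r, h1, h2⟩ := h.isAB_H0.lc x hx
  refine ⟨r, h1, fun y hy h0 => ?_⟩
  have h3 : finrank ℂ (H0 β p k (I y)) = finrank ℂ (H0 β p k (I x)) := h2 y hy h0
  change -(finrank ℂ (HL β p k (I y)) : ℤ) ≤ -(finrank ℂ (HL β p k (I x)) : ℤ)
  rw [(h.ty x hx).finrank_HL (h.le hx) (h.fam.reg x hx),
    (h.ty y hy).finrank_HL (h.le hy) (h.fam.reg y hy), h3]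
/-- `lS = comap (a ↦ (θ ⊗ u ↦ a θ u)) (homMap (tens HL U) U)` (`mem_lS`; `a q ∈ A_p` for `a ∈ SB β`,
`q ∈ Q`): `CogA` of constant rank one -/
theorem isAB_lS' (h : IFam X p β n k I) : IsAB X (LG Sg β k) fun x => lS β (I x) := by
  have hU := h.fam.ab p le_rfl
  have e : ∀ x ∈ X.pts, (homMap (tens (HL β p k (I x)) ((r1 Sg k).pc (I x) p))
      ((r1 Sg k).pc (I x) p)).comap (LinearMap.lcomp ℂ _ (TensorProduct.lift LinearMap.id) ∘ₗ
        mQ β p k) = lS β (I x) := fun x hx => Submodule.ext fun a => by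
    rw [(h.ty x hx).mem_lS (k := k) (h.le hx) (h.fam.reg x hx)]
    refine ⟨fun H θ hθ u hu => H _ (tmul_mem hθ hu), fun H => mem_homMap'.2 ?_⟩
    rw [Submodule.map_le_iff_le_comap, tens_le]
    exact fun θ hθ u hu => H θ hθ u hu
  refine (sc_shift _ _).isAB (kT _ k)
    (((((h.isAB_HL.tens hU).homMap hU).cog.comap (φ := fun _ => _) (RegM.const _)).congr
      e).alg_of_rk fun x hx => (h.ty x hx).finrank_lS (h.le hx)) fun x hx => ?_
  rw [← e _ (X.inv x hx), ← e x hx, HL_congr (h.pc_gpt hx), h.pc_gpt hx]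
/-- `a ⊗ θ ↦ a θ` identifies `tens l HL / tens l H0` with `(span id ⊔ K) / K`, `K = homMap U ⊥` in
`(W.hom W).shift (k • eT)` (`kq_iso`), whose class is `t^k` -/
theorem lcl_mul (h : IFam X p β n k I) : lcl X β k I *
    (kc X (LH Sg β p k) (fun x => HL β p k (I x)) - kc X (LH Sg β p k) fun x => H0 β p k (I x)) =
      Top.tK X k := by
  have hU := h.fam.ab p le_rfl
  let W := (r1 Sg k).G p
  let T : GV := (W.hom W).shift (k • eT)
  have sT : T.Sc (k • eT) := (((TV0.sc_G k p).hom (TV0.sc_G k p)).shift _).of_eq (by abel)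
  have hK : IsAB X T fun x => homMap ((r1 Sg k).pc (I x) p) ⊥ :=
    (hU.homMap (IsAB.bot hU.hin)).shift (kT _ k)
  let ψ : ((LG Sg β k).tens (LH Sg β p k)).V →ₗ[ℂ] T.V :=
    TensorProduct.lift (LinearMap.llcomp ℂ W.V _ W.V ∘ₗ mQ β p k)
  have hψ : IsRM X ((LG Sg β k).tens (LH Sg β p k)) T fun _ => ψ :=
    (((sc_shift _ _).tens sc_LH).of_eq (by abel)).isRM sT ψ
  have eψ : ∀ a θ u, (r1 Sg k).inc p (ψ (a ⊗ₜ θ) u) = a.1 * (θ u).1 := fun _ _ _ => rfl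
  let ι : (line (k • eT)).V →ₗ[ℂ] T.V := LinearMap.toSpanSingleton ℂ _ LinearMap.id
  have hL := h.isAB_lS'.tens h.isAB_HL
  have hL' := h.isAB_lS'.tens h.isAB_H0
  have inj : ∀ x ∈ X.pts, tens (lS β (I x)) (HL β p k (I x)) ⊓
      (homMap ((r1 Sg k).pc (I x) p) ⊥).comap ψ = tens (lS β (I x)) (H0 β p k (I x)) := fun x hx => by
    obtain ⟨s, hs, -, h2⟩ := (h.ty x hx).exists_eqn (h.le hx)
    refine le_antisymm (fun t ht => ?_) (le_inf (tens_mono le_rfl H0_le_HL)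
      (tens_le.2 fun a _ θ hθ u hu => (r1 Sg k).inc_inj p ?_))
    · obtain ⟨θ, -, rfl⟩ := Hart.mem_tens_span (h2 ▸ ht.1)
      refine tmul_mem (h2 ▸ Submodule.mem_span_singleton_self s) fun u hu => Subtype.ext ?_
      have h3 := eψ s θ u
      rw [show ψ (s ⊗ₜ θ) u = 0 from ht.2 u hu, map_zero, zero_eq_mul] at h3
      exact h3.resolve_left hs
    · rw [eψ, mem_H0.1 hθ u hu, Submodule.coe_zero, mul_zero, map_zero]
  have hM := hL.map_sup_of_inj hL' hK hψ inj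
  have e₁ := kq_iso hL hL' hM hK hψ fun x hx => ⟨inj x hx, rfl⟩
  have e₂ := kq_iso (IsAB.top (in_line (kT _ k))) (IsAB.bot (in_line (kT _ k))) hM hK
    ((sc_shift _ _).isRM sT ι) fun x hx => by
      obtain ⟨s, hs, h1, h2⟩ := (h.ty x hx).exists_eqn (h.le hx)
      have key : ∀ (θ : (LH Sg β p k).V) (c : ℂ), (∀ u ∈ (r1 Sg k).pc (I x) p,
          (θ u).1 = c • (s.1⁻¹ * (r1 Sg k).inc p u)) →
          ψ (s ⊗ₜ θ) - ι c ∈ homMap ((r1 Sg k).pc (I x) p) ⊥ := fun θ c hc u hu =>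
        (r1 Sg k).inc_inj p (by
          change (r1 Sg k).inc p (ψ (s ⊗ₜ θ) u - c • u) = _
          rw [map_sub, eψ, hc u hu, mul_smul_comm, mul_inv_cancel_left₀ hs, map_smul, sub_self,
            map_zero])
      refine ⟨eq_bot_iff.2 fun c hc => ?_, le_antisymm (sup_le ?_ le_sup_right)
        (sup_le ?_ le_sup_right)⟩
      · obtain ⟨u, hu, h0⟩ := exists_ne (h.ty x hx) (h.le hx) (h.fam.reg x hx) k
        exact (smul_eq_zero.1 (show c • u = 0 from hc.2 u hu)).resolve_right h0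
      · rintro _ ⟨c, -, rfl⟩
        obtain ⟨θ, hθ, e⟩ := exists_HL (p := p) (k := k) h1
        refine Submodule.mem_sup.2 ⟨ψ (s ⊗ₜ (c • θ)), Submodule.mem_map_of_mem (tmul_mem
          (h2 ▸ Submodule.mem_span_singleton_self s) (Submodule.smul_mem _ c hθ)), _,
          neg_mem (key (c • θ) c fun u hu => ?_), by abel⟩
        rw [LinearMap.smul_apply, Submodule.coe_smul, e u hu]
      · rintro _ ⟨t, ht, rfl⟩
        obtain ⟨θ, hθ, rfl⟩ := Hart.mem_tens_span (h2 ▸ ht)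
        obtain ⟨c, hc⟩ := (mem_HL h1 (h.le hx) (h.fam.reg x hx)).1 hθ
        exact Submodule.mem_sup.2 ⟨ι c, Submodule.mem_map_of_mem Submodule.mem_top, _, key θ c hc,
          by abel⟩
  rw [kc_line (kT _ k), kc_of_bot fun _ _ => rfl, sub_zero] at e₂
  rw [kc_tens h.isAB_lS' h.isAB_HL, kc_tens h.isAB_lS' h.isAB_H0] at e₁
  rw [mul_sub]
  exact e₁.trans e₂.symm
lemma exists_l (h : IFam X p β n k I) :
    ∃ l : Bun X, Pres l (LG Sg β k) (fun x => lS β (I x)) ∧ l.Rk 1 ∧ l.kl = lcl X β k I := by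
  obtain ⟨l, hl⟩ := h.isAB_lS'.exists_pres
  exact ⟨l, hl, fun x hx => (hl.finrank hx).trans ((h.ty x hx).finrank_lS (h.le hx)), hl.kl⟩
/-- a line bundle is invertible: `dual l * l = 1` -/
theorem kc_HL (h : IFam X p β n k I) :
    kc X (LH Sg β p k) (fun x => HL β p k (I x)) - kc X (LH Sg β p k) (fun x => H0 β p k (I x)) =
      K.dual X (lcl X β k I) * Top.tK X k := by
  obtain ⟨l, -, h1, e⟩ := h.exists_l
  rw [← h.lcl_mul, ← mul_assoc, mul_comm (K.dual X _), ← e, h1.mul_dual, one_mul]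
/-- `nil_of_sc` -/
theorem nil' (h : IFam X p β n k I) :
    (1 - op X (lcl X β k I) * Top.tO X (-k)) ^ Sg.V.hh β 0 = 0 := by
  obtain ⟨l, hl, h1, e⟩ := h.exists_l
  rw [← e, Ch.hh_zero, Top.tO, neg_smul]
  exact nil_of_sc (sc_shift _ _) (kT _ k) hl h1
/-- `chiK_eq`, `rk_kc`, `Ty.finrank_Hb` -/
theorem rk_chiK' (h : IFam X p β n k I) (h' : IFam X p β' n' k' J) (hX : 0 ∉ X.B) {x : Pt}
    (hx : x ∈ X.pts) : K.rk hx (chiK (r1 Sg k) (r1 Sg k') X p I J) =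
      Sg.V.chi β - Sg.V.chi (β - β') + n' := by
  rw [h.fam.chiK_eq h'.fam hX, hmc, hbc, map_sub, map_sub, map_sub,
    rk_kc (IsAB.top (h.fam.isAB_stab h'.fam).hin), rk_kc (h.fam.isAB_stab h'.fam),
    rk_kc (h.fam.isAB_Hb h'.fam), rk_kc (h.fam.isAB_den h'.fam), finrank_top]
  exact (h.ty x hx).finrank_Hb (h'.ty x hx) (h.le hx) (h'.le hx) h.fam.two (h.fam.reg x hx)
    (h'.fam.reg x hx)
end IFam

end Crest.Agent.N265.M
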