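import Crest.Agent.N265.Fx.Lam
import Crest.Agent.N265.Fx.Ext

/-!
# Row 265, M-FIX (helper94): `H¹(β) ⊗ l^∨` is a subbundle of `Ext¹(I, O/I) = Hb / (range res ⊔ den)`
-/

set_option autoImplicit false
set_option linter.dupNamespace false
noncomputable section
open MvPolynomial Module TensorProduct

namespace Crest.Agent.N265.M
open Crest.Agent.R274
open Defs_781 Lat_781 SnapA_99 SnapB_99 SnapE_99 Gen7_750 Xs1_781 SkDefs_474
open Alg GV Br N Fib _root_.Crest.Agent.N265.Pow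
variable {Sg : Surf} {X : Spc} {p : ℕ} {β : Sg.V.G} {n : ℕ} {k : ℤ}

namespace Ob
section lin
variable {V M : Type} [AddCommGroup V] [Module ℂ V] [AddCommGroup M] [Module ℂ M] [Module Sg.F M]
  [IsScalarTower ℂ Sg.F M] {j : ℕ}
lemma mF_congr {f g : V →ₗ[ℂ] M} {U : Submodule ℂ V} (h : ∀ v ∈ U, f v = g v)
    {t : V ⊗[ℂ] SA Sg j} (ht : t ∈ tens U ⊤) : mF f j t = mF g j t :=
  tens_eqOn (fun v hv a _ => by rw [mF_tmul, mF_tmul, h v hv]) ht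
lemma mF_sum {ι : Type} (s : Finset ι) (f : ι → V →ₗ[ℂ] M) (t : V ⊗[ℂ] SA Sg j) :
    mF (∑ i ∈ s, f i) j t = ∑ i ∈ s, mF (f i) j t := by
  induction t using TensorProduct.induction_on with
  | zero => simp
  | tmul v a => simp only [mF_tmul, LinearMap.sum_apply, Finset.smul_sum]
  | add a b ha hb => simp only [map_add, ha, hb, Finset.sum_add_distrib]
lemma mF_smul (c : Sg.F) {f g : V →ₗ[ℂ] M} {U : Submodule ℂ V} (h : ∀ v ∈ U, f v = c • g v)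
    {t : V ⊗[ℂ] SA Sg j} (ht : t ∈ tens U ⊤) : mF f j t = c • mF g j t :=
  Hm.tens_ind (p := fun t => mF f j t = c • mF g j t) ht (by simp)
    (fun v hv a _ => by rw [mF_tmul, mF_tmul, h v hv, smul_comm])
    fun a b ha hb => by rw [map_add, map_add, ha, hb, smul_add]
end lin

lemma sc_G (j : ℕ) : ((r1 Sg k).G j).Sc (k • eT) := sc_pi fun _ => sc_shift _ _
lemma sc_LH : (LH Sg β p k).Sc 0 := ((sc_G p).hom (sc_shift _ _)).of_eq (sub_self _)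
lemma sc_HG : ((r1 Sg k).HG (r1 Sg k) p).Sc 0 :=
  (((sc_G p).tens (sc_triv _)).hom (sc_G _)).of_eq (by rw [add_zero, sub_self])

/-- a constant extension of `mF y 3` from the relations of `Q` -/
lemma exists_ext {y : QS Sg β p →ₗ[ℂ] Sg.F} (h : LocM y) (k : ℤ) :
    ∃ Θ : QS Sg β p ⊗[ℂ] SA Sg 3 →ₗ[ℂ] ((r1 Sg k).G (3 + p)).V,
      ∀ t, mF (QS Sg β p).subtype 3 t = 0 → (r1 Sg k).inc (3 + p) (Θ t) = mF y 3 t := by
  obtain ⟨Θ, hΘ⟩ := LinearMap.exists_extend (K := ℂ) (V := QS Sg β p ⊗[ℂ] SA Sg 3)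
    (V' := SA Sg (3 + p)) (p := LinearMap.ker (mF (QS Sg β p).subtype 3))
    (((mF y 3).domRestrict (LinearMap.ker (mF (QS Sg β p).subtype 3))).codRestrict (SA Sg (3 + p))
      fun t => h.mF_mem t.2)
  refine ⟨LinearMap.pi fun _ => Θ, fun t ht => ?_⟩
  exact congrArg Subtype.val (LinearMap.congr_fun hΘ ⟨t, ht⟩)

variable {m : ℕ}
/-- `θ ↦ ∑ Θ_j ∘ (θ_j ⊗ 1)` -/
def Φ (Θ : Fin m → QS Sg β p ⊗[ℂ] SA Sg 3 →ₗ[ℂ] ((r1 Sg k).G (3 + p)).V) :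
    (GV.pi fun _ : Fin m => LH Sg β p k).V →ₗ[ℂ] ((r1 Sg k).HG (r1 Sg k) p).V :=
  ∑ j, (LinearMap.llcomp ℂ _ _ _ (Θ j) ∘ₗ LinearMap.rTensorHom (SA Sg 3)) ∘ₗ LinearMap.proj j
lemma Φ_apply (Θ : Fin m → QS Sg β p ⊗[ℂ] SA Sg 3 →ₗ[ℂ] ((r1 Sg k).G (3 + p)).V)
    (θ : (GV.pi fun _ : Fin m => LH Sg β p k).V) (t : (WA Sg ((r1 Sg k).G p) 3).V) :
    Φ Θ θ t = ∑ j, Θ j (LinearMap.rTensor _ (θ j) t) := by
  rw [Φ, LinearMap.sum_apply, LinearMap.sum_apply]; rfl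

section fib
variable {I : XL Sg Sg.F} {s : Sg.F} {hs : s ≠ 0} {y : Fin m → QS Sg β p →ₗ[ℂ] Sg.F}
  {Θ : Fin m → QS Sg β p ⊗[ℂ] SA Sg 3 →ₗ[ℂ] ((r1 Sg k).G (3 + p)).V}
  (h : FC I (OL Sg.V.T (-(β + Sg.V.div s hs)))) (le : LeL I (OX Sg.V.X)) (hr : RegL I.toLat p)
  (hΘ : ∀ j t, mF (QS Sg β p).subtype 3 t = 0 → (r1 Sg k).inc (3 + p) (Θ j t) = mF (y j) 3 t)
include h le hr hΘ

lemma inc_Φ {θ : (GV.pi fun _ : Fin m => LH Sg β p k).V} (hθ : ∀ j, θ j ∈ HL β p k I)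
    {t : (WA Sg ((r1 Sg k).G p) 3).V} (ht : t ∈ (r1 Sg k).KK I p 3) :
    (r1 Sg k).inc (3 + p) (Φ Θ θ t) = mF (∑ j, y j ∘ₗ θ j) 3 t := by
  rw [Φ_apply, map_sum, mF_sum]
  refine Finset.sum_congr rfl fun j _ => ?_
  rw [hΘ, Hm.mF_rT]
  obtain ⟨c, hc⟩ := (mem_HL h le hr).1 (hθ j)
  rw [Hm.mF_rT, mF_smul (c • s⁻¹) (g := (r1 Sg k).inc p) (fun v hv => ?_) ht.1,
    LinearMap.mem_ker.1 ht.2, smul_zero]
  exact (hc v hv).trans (smul_mul_assoc _ _ _).symm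

lemma Φ_mem {θ : (GV.pi fun _ : Fin m => LH Sg β p k).V} (hθ : ∀ j, θ j ∈ HL β p k I) :
    Φ Θ θ ∈ (r1 Sg k).Hb (r1 Sg k) I I p := fun l t ht h0 => by
  rw [Amb.mem_pc, Amb.inc_mul, Hm.mF_rT,
    mF_congr (g := mF (∑ j, y j ∘ₗ θ j) 3) (fun v hv => inc_Φ h le hr hΘ hθ hv) ht, ← Hm.mF_mm, h0,
    map_zero]
  exact zero_mem _

lemma inf_comap (hp : 2 ≤ p) (hy : ∀ j, LocM (y j))
    (hi : ∀ d : Fin m → ℂ, GlM (∑ j, d j • y j) → d = 0) :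
    (Submodule.pi Set.univ fun _ => HL β p k I) ⊓
      ((⊤ : Submodule ℂ _).map ((r1 Sg k).res (r1 Sg k) p) ⊔
        (r1 Sg k).den (r1 Sg k) I I p).comap (Φ Θ) =
      Submodule.pi Set.univ fun _ => H0 β p k I := by
  refine le_antisymm (fun θ h12 => ?_) fun θ h1 => ⟨fun j _ => H0_le_HL (h1 j trivial), ?_⟩
  · obtain ⟨h1, h2⟩ := h12
    have hθ : ∀ j, θ j ∈ HL β p k I := fun j => h1 j trivial
    obtain ⟨_, ⟨φ, -, rfl⟩, δ, hδ, e⟩ := Submodule.mem_sup.1 h2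
    obtain ⟨θ₀, -, h0⟩ := exists_HL (p := p) (k := k) h
    choose c hc using fun j => (mem_HL h le hr).1 (hθ j)
    have e0 : ∀ j, ∀ u ∈ (r1 Sg k).pc I p, θ j u = c j • θ₀ u := fun j u hu =>
      Subtype.ext (by rw [hc j u hu, Submodule.coe_smul, h0 u hu])
    have := hi c (ob_inj h le hp hr (LocM.sum hy c) h0 φ fun t ht => ?_)
    · intro j _ u hu
      rw [e0 j u hu, this]; simp
    have e1 : mF ((∑ j, c j • y j) ∘ₗ θ₀) 3 t = mF (∑ j, y j ∘ₗ θ j) 3 t :=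
      mF_congr (fun u hu => by
        simp only [LinearMap.comp_apply, LinearMap.sum_apply, LinearMap.smul_apply, e0 _ u hu,
          map_smul]) ht.1
    have e2 : mF ((r1 Sg k).inc p ∘ₗ φ) 3 t =
        (r1 Sg k).inc (3 + p) ((r1 Sg k).res (r1 Sg k) p φ t) := by
      rw [Amb.res_apply, Amb.inc_mul, Hm.mF_rT]
    rw [e1, ← inc_Φ h le hr hΘ hθ ht, e2, ← map_sub, ← e, LinearMap.add_apply, add_sub_cancel_left]
    exact hδ t ht
  · refine Submodule.mem_sup_right fun t ht => ?_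
    rw [Φ_apply, Finset.sum_eq_zero fun j _ => ?_]
    · exact zero_mem _
    have := Hm.rT_mem (A := SA Sg 3) (h1 j trivial) ht.1
    rw [tens_bot_left, Submodule.mem_bot] at this
    rw [this, map_zero]
end fib
end Ob

open Ob in
/-- the obstruction bundle of one family -/
theorem IFam.ob_one {I : Pt → XL Sg Sg.F} (h : IFam X p β n k I) (hX : 0 ∉ X.B)
    (hne : X.pts.Nonempty)
    (hT : IsAB X ((r1 Sg k).EG (r1 Sg k) p) fun x => (r1 Sg k).Tv (r1 Sg k) (I x) (I x) p)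
    (hr : ∀ x ∈ X.pts, finrank ℂ ((r1 Sg k).Tv (r1 Sg k) (I x) (I x) p) + 1 =
      finrank ℂ ((r1 Sg k).stab (r1 Sg k) (I x) (I x) p) + Sg.V.hh β 0 + 2 * n) :
    ∃ C : Bun X, C.Rk n ∧
      tvc (r1 Sg k) (r1 Sg k) X p I I - chiK (r1 Sg k) (r1 Sg k) X p I I =
        Sg.V.hh β 1 • (K.dual X (lcl X β k I) * Top.tK X k) + C.kl := by
  obtain ⟨x₀, hx₀⟩ := hne
  obtain ⟨y, hy, hi⟩ := exists_ys ((h.ty x₀ hx₀).reg_OL (h.fam.reg x₀ hx₀))
  choose Θ hΘ using fun j => exists_ext (hy j) k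
  have top := IsAB.top (X := X) hT.hin
  have den := h.fam.isAB_den h.fam
  have res := IsRM.const (X := X) (Amb.deg0_res (r1 Sg k) (r1 Sg k) p)
  have hD := top.map_sup_of_inj hT den res fun x _ => top_inf_eq _
  have e1 := kq_iso top hT hD den res fun x _ => ⟨top_inf_eq _, rfl⟩
  have hL := IsAB.pi fun _ : Fin (Sg.V.hh β 1) => h.isAB_HL
  have hL' := IsAB.pi fun _ : Fin (Sg.V.hh β 1) => h.isAB_H0
  have hΦ : IsRM X _ _ fun _ => Φ Θ := (sc_pi fun _ => sc_LH).isRM sc_HG _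
  have key := fun x (hx : x ∈ X.pts) =>
    ((h.ty x hx).exists_eqn (h.le hx)).elim fun s hs => hs.elim fun _ hs =>
      inf_comap hs.1 (h.le hx) (h.fam.reg x hx) hΘ h.fam.two hy hi
  have hE := hL.map_sup_of_inj hL' hD hΦ key
  have e2 := kq_iso hL hL' hE hD hΦ fun x hx => ⟨key x hx, rfl⟩
  obtain ⟨C, hC, -⟩ := (h.fam.isAB_Hb h.fam).exists_bun_sq hE fun x hx => by
    obtain ⟨s, hs, hf, -⟩ := (h.ty x hx).exists_eqn (h.le hx)
    refine sup_le ?_ (sup_le ?_ Amb.den_le_Hb)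
    · rintro _ ⟨θ, hθ, rfl⟩
      exact Φ_mem hf (h.le hx) (h.fam.reg x hx) hΘ fun j => hθ j trivial
    · rintro _ ⟨φ, -, rfl⟩
      exact Amb.res_mem_Hb φ
  rw [kc_pi fun _ => h.isAB_HL, kc_pi fun _ => h.isAB_H0, ← Finset.sum_sub_distrib,
    Finset.sum_const, Finset.card_fin] at e2
  have e : tvc (r1 Sg k) (r1 Sg k) X p I I - chiK (r1 Sg k) (r1 Sg k) X p I I =
      Sg.V.hh β 1 • (kc X (LH Sg β p k) (fun x => HL β p k (I x)) -
        kc X (LH Sg β p k) fun x => H0 β p k (I x)) + C.kl := by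
    rw [h.fam.chiK_eq h.fam hX, tvc, hmc, hbc, e2, hC]
    linear_combination -e1
  refine ⟨C, fun x hx => ?_, by rw [e, h.kc_HL]⟩
  have := congrArg (K.rk hx) e
  have q := pgq Sg
  rw [map_sub, map_add, map_nsmul, map_sub, K.rk_kl, h.rk_chiK' h hX hx, tvc, map_sub, rk_kc hT,
    rk_kc (h.fam.isAB_stab h.fam), rk_kc h.isAB_HL, rk_kc h.isAB_H0,
    (h.ty x hx).finrank_HL (h.le hx) (h.fam.reg x hx), sub_self, q.chi_zero,
    q.chi_eff ((h.ty x hx).hasSec (h.le hx))] at this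
  have h2 := congrArg (Nat.cast : ℕ → ℤ) (hr x hx)
  rw [Nat.cast_add, Nat.cast_one, add_sub_cancel_left, nsmul_one] at this
  push_cast at h2
  exact Nat.cast_injective (R := ℤ) (by linear_combination h2 - this)

end Crest.Agent.N265.M
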